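import Vale.Agent.P199.Assemble

/-!
# P199: both forms of the question, from the assembled construction
-/

namespace Vale.Agent.P199

/-- Both forms of Kurosh's question, negated, from `KuroshFails`. -/
theorem answer_of_fails (h : KuroshFails) :
    (∃ (D : Type) (_ : DivisionRing D), Algebra.IsAlgebraic (Subring.center D) D ∧
        ∃ S : Set D, S.Finite ∧
          ¬ Module.Finite (Subring.center D) (Algebra.adjoin (Subring.center D) S)) ∧
      ∃ (k D : Type) (_ : Field k) (_ : DivisionRing D) (_ : Algebra k D),
        Algebra.FiniteType k D ∧ Algebra.IsAlgebraic k D ∧ ¬ Module.Finite k D := by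
  obtain ⟨k, D, hk, hD, hA, x, y, hgen, halg, hnfin, halgc, hnfinc⟩ := h
  refine ⟨⟨D, hD, halgc, {x, y}, Set.toFinite _, fun hf => hnfinc ?_⟩,
    k, D, hk, hD, hA, ?_, halg, hnfin⟩
  · have htop : Algebra.adjoin (Subring.center D) {x, y} = ⊤ := by
      refine eq_top_iff.2 fun z _ => ?_
      have hz : z ∈ Algebra.adjoin k {x, y} := hgen ▸ Algebra.mem_top
      clear * - hz
      induction hz using Algebra.adjoin_induction with
      | mem u hu => exact Algebra.subset_adjoin hu
      | algebraMap r =>
        exact Subalgebra.algebraMap_mem _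
          (⟨algebraMap k D r, Subring.mem_center_iff.2 fun g => (Algebra.commutes r g).symm⟩ :
            Subring.center D)
      | add u v _ _ hu hv => exact add_mem hu hv
      | mul u v _ _ hu hv => exact mul_mem hu hv
    rw [htop] at hf
    exact Module.Finite.equiv Subalgebra.topEquiv.toLinearEquiv
  · exact ⟨Subalgebra.fg_def.2 ⟨{x, y}, Set.toFinite _, hgen⟩⟩

end Vale.Agent.P199
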