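import Vale.Agent.P199.Reduce

/-!
# P199: semilinear irreducibility and invertibility of fixed matrices

`Irred H σ` says that `L ^ X` has no proper subspace invariant under the semilinear maps given by
the integral matrices `H i` and the ring endomorphisms `σ i`. It holds for the Heisenberg matrices
in characteristic different from two, passes from a residue field to the fraction field of a
principal ideal domain, and makes every nonzero fixed matrix invertible.
-/

namespace Vale.Agent.P199.Division

open Module Submodule Matrix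

variable {X : Type*} [Fintype X]

/-- The image of an integral matrix in a ring. -/
abbrev castMat (L : Type*) [Ring L] (M : Matrix X X ℤ) : Matrix X X L := M.map (Int.cast : ℤ → L)

/-- No proper subspace of `L ^ X` is invariant under the semilinear maps `(H i, σ i)`. -/
def Irred {L : Type*} [Field L] {ι : Type*} (H : ι → Matrix X X ℤ) (σ : ι → L →+* L) : Prop :=
  ∀ W : Submodule L (X → L), (∀ i, ∀ w ∈ W, castMat L (H i) *ᵥ (σ i ∘ w) ∈ W) → W = ⊥ ∨ W = ⊤

/-- Irreducibility passes from the residue field to the fraction field. -/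
theorem irred_of_residue {O L κ : Type*} [CommRing O] [IsDomain O] [IsPrincipalIdealRing O]
    [Field L] [Algebra O L] [IsFractionRing O L] [Field κ] {ι : Type*} (H : ι → Matrix X X ℤ)
    (π : O →+* κ) (hπ : Function.Surjective π) (σO : ι → O →+* O) (σL : ι → L →+* L)
    (σκ : ι → κ →+* κ) (hL : ∀ i a, σL i (algebraMap O L a) = algebraMap O L (σO i a))
    (hκ : ∀ i a, σκ i (π a) = π (σO i a)) (h : Irred H σκ) : Irred H σL := by
  intro W hW
  obtain ⟨W', hd, hW'⟩ := Reduce.exists_invariant_reduction π hπ W σO σL σκ hL hκ
    (fun i => castMat O (H i)) (fun i w hw => by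
      convert hW i w hw using 2
      ext a b
      simp)
  have hW'' : ∀ i, ∀ w ∈ W', castMat κ (H i) *ᵥ (σκ i ∘ w) ∈ W' := fun i w hw => by
    convert hW' i w hw using 2
    ext a b
    simp
  rcases h W' hW'' with h0 | h0
  · left
    rw [h0, finrank_bot] at hd
    exact Submodule.finrank_eq_zero.1 hd.symm
  · right
    rw [h0, finrank_top, Module.finrank_pi] at hd
    exact Submodule.eq_top_of_finrank_eq (by rw [← hd, Module.finrank_pi])

/-- A nonzero fixed matrix has trivial kernel. -/
theorem isUnit_of_fixed [DecidableEq X] {L : Type*} [Field L] {ι : Type*}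
    {H : ι → Matrix X X ℤ} {σ : ι → L →+* L} (h : Irred H σ) {z : Matrix X X L}
    (hz : ∀ i, castMat L (H i) * z.map (σ i) = z * castMat L (H i)) (hz0 : z ≠ 0) :
    IsUnit z := by
  rcases h (LinearMap.ker z.mulVecLin) (fun i w hw => by
    rw [LinearMap.mem_ker, mulVecLin_apply] at hw ⊢
    have h1 : (z.map (σ i)) *ᵥ (σ i ∘ w) = 0 := by
      funext a
      have := congrArg (σ i) (congrFun hw a)
      simpa [mulVec, dotProduct, map_sum] using this
    rw [mulVec_mulVec, ← hz i, ← mulVec_mulVec, h1, mulVec_zero]) with h0 | h0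
  · exact mulVec_injective_iff_isUnit.1 (LinearMap.ker_eq_bot.1 h0)
  · exact absurd (ext_of_mulVec_single fun j => by
      have := h0 ▸ (Submodule.mem_top (x := (Pi.single j 1 : X → L)))
      simpa [funext_iff, col_apply] using LinearMap.mem_ker.1 this) hz0

/-- Index set of the Heisenberg representation. -/
abbrev Idx (n : ℕ) := Fin n → ZMod 2

/-- Translation matrix. -/
def shift {n : ℕ} (a : Idx n) : Matrix (Idx n) (Idx n) ℤ :=
  Matrix.of fun x y => if y = x + a then 1 else 0

/-- Sign character of a coordinate. -/
def sgn (t : ZMod 2) : ℤ := if t = 0 then 1 else -1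

/-- Clock matrix of a coordinate. -/
def clock {n : ℕ} (k : Fin n) : Matrix (Idx n) (Idx n) ℤ :=
  Matrix.diagonal fun x => sgn (x k)

/-- The Heisenberg representation is irreducible when `2 ≠ 0`. -/
theorem irred_heisenberg {n : ℕ} {L : Type*} [Field L] (h2 : (2 : L) ≠ 0) {ι : Type*}
    {H : ι → Matrix (Idx n) (Idx n) ℤ} (hs : ∀ a, ∃ i, H i = shift a)
    (hc : ∀ k, ∃ i, H i = clock k) :
    Irred H (fun _ => RingHom.id L) := by
  classical
  intro W hW
  by_cases hW0 : W = ⊥
  · exact Or.inl hW0
  right
  have hshift : ∀ a, ∀ w ∈ W, (fun x => w (x + a)) ∈ W := by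
    intro a w hw
    obtain ⟨i, hi⟩ := hs a
    convert hW i w hw using 1
    funext x
    rw [hi]
    simp [mulVec, dotProduct, shift, apply_ite (Int.cast : ℤ → L)]
  have hclock : ∀ k, ∀ w ∈ W, (fun x => (sgn (x k) : L) * w x) ∈ W := by
    intro k w hw
    obtain ⟨i, hi⟩ := hc k
    convert hW i w hw using 1
    funext x
    rw [hi]
    simp [clock, castMat, diagonal_map, mulVec_diagonal]
  obtain ⟨w, hw, hw0⟩ := Submodule.exists_mem_ne_zero_of_ne_bot hW0
  obtain ⟨x, hx⟩ := Function.ne_iff.1 hw0
  -- cut down to the coordinate `x`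
  have hcut : ∀ s : Finset (Fin n),
      (fun y => if ∀ k ∈ s, y k = x k then w y else 0) ∈ W := by
    intro s
    induction s using Finset.induction_on with
    | empty => simpa using hw
    | insert k s hk ih =>
      have h1 := W.smul_mem (2⁻¹ : L) (W.add_mem ih (W.smul_mem (sgn (x k) : L) (hclock k _ ih)))
      convert h1 using 1
      funext y
      simp only [Pi.smul_apply, Pi.add_apply, smul_eq_mul, Finset.forall_mem_insert]
      by_cases hs' : ∀ j ∈ s, y j = x j
      · by_cases hk' : y k = x k
        · rw [if_pos ⟨hk', hs'⟩, if_pos hs', hk']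
          have : (sgn (x k) : L) * (sgn (x k) : L) = 1 := by
            unfold sgn; split <;> simp
          rw [← mul_assoc, this, one_mul, ← two_mul, ← mul_assoc, inv_mul_cancel₀ h2, one_mul]
        · rw [if_neg fun h => hk' h.1, if_pos hs']
          have : (sgn (x k) : L) * (sgn (y k) : L) = -1 := by
            have h3 : ∀ a b : ZMod 2, a ≠ b → sgn a * sgn b = -1 := by decide
            exact_mod_cast congrArg (Int.cast : ℤ → L) (h3 _ _ (Ne.symm hk'))
          rw [← mul_assoc, this]
          ring
      · rw [if_neg fun h => hs' h.2, if_neg hs']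
        simp
  have hsingle : ∀ z, (Pi.single z 1 : Idx n → L) ∈ W := by
    intro z
    have h1 := hshift (x - z) _ (W.smul_mem (w x)⁻¹ (hcut Finset.univ))
    convert h1 using 1
    funext y
    simp only [Pi.smul_apply, smul_eq_mul, Finset.mem_univ, forall_const, Pi.single_apply]
    by_cases hy : y = z
    · subst hy
      rw [if_pos rfl, if_pos (fun k => by simp), add_sub_cancel, inv_mul_cancel₀ hx]
    · rw [if_neg hy, if_neg (fun h => hy ?_), mul_zero]
      have h' : y + (x - z) = x := funext h
      exact add_right_cancel (h'.trans (add_sub_cancel z x).symm)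
  refine eq_top_iff.2 fun v _ => ?_
  rw [pi_eq_sum_univ' v]
  exact W.sum_mem fun i _ => W.smul_mem _ (hsingle i)

end Vale.Agent.P199.Division
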