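import Vale.Agent.P199.Closure

/-!
P199: fixed rings of semilinear actions without invariant subspaces give the approximations needed by
the closure step.
-/

namespace Vale.Agent.P199.Fixed

open Matrix

section descent
variable {L : Type*} [Field L] {ι m : Type*} [Fintype m] [DecidableEq m]

/-- The field fixed by a family of endomorphisms. -/
def fixedField (σ : ι → L →+* L) : Subfield L where
  carrier := {a | ∀ i, σ i a = a}
  zero_mem' i := map_zero _
  one_mem' i := map_one _
  add_mem' ha hb i := by rw [map_add, ha i, hb i]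
  neg_mem' ha i := by rw [map_neg, ha i]
  mul_mem' ha hb i := by rw [map_mul, ha i, hb i]
  inv_mem' a ha i := by rw [map_inv₀, ha i]

/-- The matrices fixed by the semilinear action, as an algebra over the fixed field. -/
def fixedRing (σ : ι → L →+* L) (H : ι → Matrix m m L) :
    Subalgebra (fixedField σ) (Matrix m m L) where
  carrier := {M | ∀ i, H i * M.map (σ i) = M * H i}
  mul_mem' {A B} ha hb i := by
    rw [Matrix.map_mul, ← mul_assoc, ha i, mul_assoc, hb i, mul_assoc]
  one_mem' i := by rw [Matrix.map_one _ (map_zero _) (map_one _), mul_one, one_mul]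
  add_mem' {A B} ha hb i := by
    rw [Matrix.map_add _ (map_add _), mul_add, ha i, hb i, add_mul]
  zero_mem' i := by rw [Matrix.map_zero _ (map_zero _), mul_zero, zero_mul]
  algebraMap_mem' r i := by
    have h1 : (algebraMap (fixedField σ) (Matrix m m L) r).map (σ i) =
        algebraMap (fixedField σ) (Matrix m m L) r := by
      ext a b
      rw [Matrix.map_apply, Matrix.algebraMap_matrix_apply]
      split_ifs
      · exact r.2 i
      · exact map_zero _
    rw [h1, Algebra.commutes]

variable {σ : ι → L →+* L} {H : ι → Matrix m m L}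

/-- Without invariant subspaces the fixed ring has no zero divisors. -/
theorem noZeroDivisors
    (hirr : ∀ W : Submodule L (m → L), (∀ i, ∀ w ∈ W, H i *ᵥ (σ i ∘ w) ∈ W) → W = ⊥ ∨ W = ⊤) :
    NoZeroDivisors (fixedRing σ H) := by
  refine ⟨fun {a b} hab => ?_⟩
  let W : Submodule L (m → L) := LinearMap.ker (Matrix.mulVecLin (a : Matrix m m L))
  have hinv : ∀ i, ∀ w ∈ W, H i *ᵥ (σ i ∘ w) ∈ W := by
    intro i w hw
    simp only [W, LinearMap.mem_ker, Matrix.mulVecLin_apply] at hw ⊢
    have h1 : (a : Matrix m m L).map (σ i) *ᵥ (σ i ∘ w) = 0 := by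
      funext x
      rw [← RingHom.map_mulVec, hw]
      simp
    rw [Matrix.mulVec_mulVec, ← a.2 i, ← Matrix.mulVec_mulVec, h1, Matrix.mulVec_zero]
  rcases hirr W hinv with h | h
  · right
    apply Subtype.ext
    have h0 : (a : Matrix m m L) * (b : Matrix m m L) = 0 := congrArg Subtype.val hab
    apply Matrix.ext_iff_mulVec.2
    intro v
    have h1 : (b : Matrix m m L) *ᵥ v ∈ W := by
      simp [W, Matrix.mulVec_mulVec, h0]
    rw [h, Submodule.mem_bot] at h1
    simpa using h1
  · left
    apply Subtype.ext
    apply Matrix.ext_iff_mulVec.2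
    intro v
    have h1 : v ∈ W := h ▸ Submodule.mem_top
    simpa [W] using h1

/-- Fixed matrices independent over the fixed field are independent over `L`. -/
theorem linearIndependent_of_fixed (hH : ∀ i, IsUnit (H i)) {κ : Type*} (v : κ → fixedRing σ H)
    (hv : LinearIndependent (fixedField σ) v) :
    LinearIndependent L fun k => (v k : Matrix m m L) := by
  classical
  rw [linearIndependent_iff']
  intro s
  induction s using Finset.induction_on with
  | empty => simp
  | insert a s ha ih =>
    intro g hg
    by_cases h0 : g a = 0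
    · rw [Finset.sum_insert ha, h0, zero_smul, zero_add] at hg
      intro k hk
      rcases Finset.mem_insert.1 hk with rfl | hk
      · exact h0
      · exact ih g hg k hk
    exfalso
    -- normalise
    let c : κ → L := fun k => g k / g a
    have hc : ∑ k ∈ insert a s, c k • (v k : Matrix m m L) = 0 := by
      have := congrArg ((g a)⁻¹ • ·) hg
      simpa [c, Finset.smul_sum, smul_smul, div_eq_inv_mul] using this
    have hfix : ∀ i, ∀ k ∈ s, σ i (c k) = c k := by
      intro i
      have h1 : ∑ k ∈ insert a s, σ i (c k) • (v k : Matrix m m L) = 0 := by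
        have h2 : (H i) * ((∑ k ∈ insert a s, c k • (v k : Matrix m m L)).map (σ i)) = 0 := by
          rw [hc, Matrix.map_zero _ (map_zero _), mul_zero]
        have h3 : (∑ k ∈ insert a s, σ i (c k) • (v k : Matrix m m L)) * H i = 0 := by
          rw [← h2, Finset.sum_mul]
          have : (∑ k ∈ insert a s, c k • (v k : Matrix m m L)).map (σ i) =
              ∑ k ∈ insert a s, σ i (c k) • (v k : Matrix m m L).map (σ i) := by
            ext x y
            simp [Matrix.sum_apply, map_sum]
          rw [this, Finset.mul_sum]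
          refine Finset.sum_congr rfl fun k _ => ?_
          rw [Matrix.smul_mul, Matrix.mul_smul, ← (v k).2 i]
        exact (hH i).mul_left_eq_zero.1 h3
      have h4 : ∑ k ∈ s, (σ i (c k) - c k) • (v k : Matrix m m L) = 0 := by
        have h5 : ∑ k ∈ insert a s, (σ i (c k) - c k) • (v k : Matrix m m L) = 0 := by
          simp only [sub_smul, Finset.sum_sub_distrib, h1, hc, sub_zero]
        rwa [Finset.sum_insert ha, show σ i (c a) - c a = 0 by simp [c, h0], zero_smul,
          zero_add] at h5
      intro k hk
      exact sub_eq_zero.1 (ih _ h4 k hk)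
    have hmem : ∀ k ∈ insert a s, c k ∈ fixedField σ := by
      intro k hk i
      rcases Finset.mem_insert.1 hk with rfl | hk
      · simp [c, h0]
      · exact hfix i k hk
    let d : κ → fixedField σ := fun k => if h : c k ∈ fixedField σ then ⟨c k, h⟩ else 0
    have h6 : ∑ k ∈ insert a s, d k • v k = 0 := by
      apply Subtype.ext
      rw [AddSubmonoidClass.coe_finsetSum, ZeroMemClass.coe_zero, ← hc]
      refine Finset.sum_congr rfl fun k hk => ?_
      simp only [d, dif_pos (hmem k hk)]
      rfl
    have h7 := linearIndependent_iff'.1 hv _ d h6 a (Finset.mem_insert_self _ _)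
    rw [show d a = ⟨c a, hmem a (Finset.mem_insert_self _ _)⟩ from
      dif_pos (hmem a (Finset.mem_insert_self _ _))] at h7
    simpa [c, h0] using congrArg Subtype.val h7

/-- The fixed ring is finite-dimensional over the fixed field. -/
theorem module_finite (hH : ∀ i, IsUnit (H i)) :
    Module.Finite (fixedField σ) (fixedRing σ H) := by
  refine Module.rank_lt_aleph0_iff.1 (lt_of_le_of_lt (rank_le fun s hs => ?_)
    (Cardinal.natCast_lt_aleph0 (n := Module.finrank L (Matrix m m L))))
  simpa using (linearIndependent_of_fixed hH _ hs).fintype_card_le_finrank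

theorem finrank_adjoin_le (hH : ∀ i, IsUnit (H i)) (x y : fixedRing σ H) :
    Module.finrank L (Algebra.adjoin L {(x : Matrix m m L), (y : Matrix m m L)}) ≤
      Module.finrank (fixedField σ) (Algebra.adjoin (fixedField σ) {x, y}) := by
  classical
  have := module_finite (σ := σ) hH
  set A := Algebra.adjoin (fixedField σ) {x, y} with hA
  have : Module.Free (fixedField σ) A := Module.Free.of_divisionRing (fixedField σ) A
  let b := Module.finBasis (fixedField σ) A
  let G : Finset (Matrix m m L) :=
    Finset.univ.image fun k => ((b k : fixedRing σ H) : Matrix m m L)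
  have hG : ∀ d ∈ A, (d : Matrix m m L) ∈ Submodule.span L (G : Set (Matrix m m L)) := by
    intro d hd
    have h := congrArg (fun z : A => ((z : fixedRing σ H) : Matrix m m L))
      (b.sum_repr ⟨d, hd⟩)
    simp only [AddSubmonoidClass.coe_finsetSum] at h
    rw [← h]
    refine Submodule.sum_mem _ fun k _ => ?_
    change ((b.repr ⟨d, hd⟩ k : fixedField σ) : L) • ((b k : fixedRing σ H) : Matrix m m L) ∈ _
    exact Submodule.smul_mem _ _ (Submodule.subset_span (by simp [G]))
  have hle := adjoin_le_span (x : Matrix m m L) (y : Matrix m m L) (G : Set (Matrix m m L))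
    (hG 1 A.one_mem) ?_ ?_
  · have h1 := (Submodule.finrank_mono hle).trans
      ((finrank_span_finset_le_card G).trans Finset.card_image_le)
    rwa [Subalgebra.finrank_toSubmodule, Finset.card_univ, Fintype.card_fin] at h1
  all_goals
    intro v hv
    obtain ⟨k, -, rfl⟩ := Finset.mem_image.1 hv
  · exact hG _ (A.mul_mem (Algebra.subset_adjoin (Set.mem_insert _ _)) (b k).2)
  · exact hG _ (A.mul_mem (Algebra.subset_adjoin (Set.mem_insert_of_mem _ rfl)) (b k).2)

/-- The approximation needed by `kurosh_false_of_approx`. -/
theorem approx {L : Type} [Field L] {ι m : Type} [Fintype m] [DecidableEq m] [Nonempty m]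
    (σ : ι → L →+* L) (H : ι → Matrix m m L) (hH : ∀ i, IsUnit (H i))
    (hirr : ∀ W : Submodule L (m → L), (∀ i, ∀ w ∈ W, H i *ᵥ (σ i ∘ w) ∈ W) → W = ⊥ ∨ W = ⊤)
    (x y : Matrix m m L) (hx : ∀ i, H i * x.map (σ i) = x * H i)
    (hy : ∀ i, H i * y.map (σ i) = y * H i) (c : ℕ → ℕ → L) (hc : ∀ a b i, σ i (c a b) = c a b)
    (q : ℕ → ℕ) (j : ℕ)
    (hroot : ∀ i ≤ j, npEval c x y (bseq i) ^ q i +
      ∑ l ∈ Finset.range (q i), c i l • npEval c x y (bseq i) ^ l = 0)
    (hdim : j < Module.finrank L (Algebra.adjoin L {x, y})) :
    ∃ (K : Type) (_ : Field K) (D : Type) (_ : Ring D) (_ : IsDomain D)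
      (_ : Algebra K D) (x y : D) (c : ℕ → ℕ → K),
      (∀ i ≤ j, npEval c x y (bseq i) ^ q i +
        ∑ l ∈ Finset.range (q i), c i l • npEval c x y (bseq i) ^ l = 0) ∧
      j < Module.finrank K (Algebra.adjoin K {x, y}) := by
  have := noZeroDivisors hirr
  have : IsDomain (fixedRing σ H) := NoZeroDivisors.to_isDomain _
  let x' : fixedRing σ H := ⟨x, hx⟩
  let y' : fixedRing σ H := ⟨y, hy⟩
  let c' : ℕ → ℕ → fixedField σ := fun a b => ⟨c a b, hc a b⟩
  have hval : ∀ b : NPoly, ((npEval c' x' y' b : fixedRing σ H) : Matrix m m L) =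
      npEval c x y b := by
    intro b
    simp only [npEval, AddSubmonoidClass.coe_list_sum, List.map_map]
    congr 1
    refine List.map_congr_left fun t _ => ?_
    have h1 : ((coeffEval c' t : fixedField σ) : L) = coeffEval c t := by
      simp only [coeffEval, Subfield.coe_mul, SubmonoidClass.coe_list_prod, List.map_map]
      rfl
    have h2 : ((wordEval x' y' t.2.2 : fixedRing σ H) : Matrix m m L) = wordEval x y t.2.2 := by
      simp only [wordEval, SubmonoidClass.coe_list_prod, List.map_map]
      congr 1
      exact List.map_congr_left fun s _ => by cases s <;> rfl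
    change ((coeffEval c' t : fixedField σ) : L) •
      ((wordEval x' y' t.2.2 : fixedRing σ H) : Matrix m m L) = _
    rw [h1, h2]
  refine ⟨fixedField σ, inferInstance, fixedRing σ H, inferInstance, inferInstance, inferInstance,
    x', y', c', fun i hi => Subtype.ext ?_, hdim.trans_le (finrank_adjoin_le hH x' y')⟩
  have hsmul : ∀ (a : fixedField σ) (z : fixedRing σ H),
      ((a • z : fixedRing σ H) : Matrix m m L) = (a : L) • (z : Matrix m m L) := fun _ _ => rfl
  simp only [AddMemClass.coe_add, SubmonoidClass.coe_pow, AddSubmonoidClass.coe_finsetSum,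
    ZeroMemClass.coe_zero, hsmul, hval]
  exact hroot i hi

end descent

end Vale.Agent.P199.Fixed
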