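import Mathlib

/-!
# P199: a pair generating a small algebra has few parameters

If the `L`-algebra generated by two `N × N` matrices has dimension at most `M`, they leave invariant
a subspace of dimension about `N / 2`, so their entries lie in a field generated by about `7 N² / 4`
elements.
-/

namespace Vale.Agent.P199.Bound

open Module Submodule Matrix

variable {L : Type*} [Field L] {N : ℕ}

/-- The two matrices map the subspace into itself. -/
def Inv (x y : Matrix (Fin N) (Fin N) L) (W : Submodule L (Fin N → L)) : Prop :=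
  ∀ u ∈ W, x *ᵥ u ∈ W ∧ y *ᵥ u ∈ W

lemma exists_inv_step (x y : Matrix (Fin N) (Fin N) L) {M : ℕ}
    (hM : finrank L (Algebra.adjoin L {x, y}) ≤ M) (v : Fin N → L) :
    ∃ W : Submodule L (Fin N → L), Inv x y W ∧ v ∈ W ∧ finrank L W ≤ M := by
  set B := Algebra.adjoin L {x, y} with hB
  let f : Matrix (Fin N) (Fin N) L →ₗ[L] (Fin N → L) :=
    { toFun := fun a => a *ᵥ v
      map_add' := fun a b => add_mulVec a b v
      map_smul' := fun c a => smul_mulVec c a v }
  refine ⟨B.toSubmodule.map f, ?_, ⟨1, B.one_mem, one_mulVec v⟩,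
    (Submodule.finrank_map_le f _).trans hM⟩
  rintro _ ⟨a, ha, rfl⟩
  refine ⟨⟨x * a, B.mul_mem (Algebra.subset_adjoin (by simp)) ha, ?_⟩,
    ⟨y * a, B.mul_mem (Algebra.subset_adjoin (by simp)) ha, ?_⟩⟩ <;>
    exact (mulVec_mulVec v _ a).symm

lemma exists_inv_subspace (x y : Matrix (Fin N) (Fin N) L) {M : ℕ}
    (hM : finrank L (Algebra.adjoin L {x, y}) ≤ M) :
    ∃ W : Submodule L (Fin N → L), Inv x y W ∧ N ≤ 2 * finrank L W ∧
      2 * finrank L W ≤ N + 2 * M := by
  classical
  have hex : ∀ d, (∃ W : Submodule L (Fin N → L), Inv x y W ∧ finrank L W = d) →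
      2 * d < N → ∃ W : Submodule L (Fin N → L), Inv x y W ∧ d < finrank L W ∧
        finrank L W ≤ d + M := by
    rintro d ⟨W, hW, rfl⟩ hd
    have : W ≠ ⊤ := by
      rintro rfl
      rw [finrank_top, finrank_fin_fun] at hd
      omega
    obtain ⟨v, -, hv⟩ := SetLike.exists_of_lt (lt_top_iff_ne_top.2 this)
    obtain ⟨U, hU, hvU, hUM⟩ := exists_inv_step x y hM v
    refine ⟨W ⊔ U, fun u hu => ?_, Submodule.finrank_lt_finrank_of_lt ?_,
      (Submodule.finrank_add_le_finrank_add_finrank W U).trans (by omega)⟩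
    · obtain ⟨a, ha, b, hb, rfl⟩ := Submodule.mem_sup.1 hu
      rw [mulVec_add, mulVec_add]
      exact ⟨Submodule.add_mem_sup (hW a ha).1 (hU b hb).1,
        Submodule.add_mem_sup (hW a ha).2 (hU b hb).2⟩
    · exact lt_of_le_of_ne le_sup_left fun h => hv (h.symm ▸ Submodule.mem_sup_right hvU)
  suffices ∀ k d, N - d ≤ k → (∃ W : Submodule L (Fin N → L), Inv x y W ∧ finrank L W = d) →
      2 * d ≤ N + 2 * M → ∃ W : Submodule L (Fin N → L), Inv x y W ∧ N ≤ 2 * finrank L W ∧
        2 * finrank L W ≤ N + 2 * M by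
    refine this N 0 (by omega) ⟨⊥, fun u hu => ?_, finrank_bot L _⟩ (by omega)
    rw [Submodule.mem_bot] at hu ⊢
    subst hu
    simp
  intro k
  induction k with
  | zero =>
    rintro d hd ⟨W, hW, rfl⟩ hle
    exact ⟨W, hW, by omega, hle⟩
  | succ k ih =>
    rintro d hd hW hle
    by_cases h : 2 * d < N
    · obtain ⟨W', hW', h1, h2⟩ := hex d hW h
      exact ih (finrank L W') (by omega) ⟨W', hW', rfl⟩ (by omega)
    · obtain ⟨W, hW', rfl⟩ := hW
      exact ⟨W, hW', by omega, hle⟩

lemma exists_unipotent (W : Submodule L (Fin N → L)) :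
    ∃ (J : Finset (Fin N)) (T : Matrix (Fin N) (Fin N) L),
      J.card + finrank L W = N ∧ (∀ j i, j ∉ J ∨ i ∈ J → T j i = 0) ∧
      (∀ i, i ∉ J → (1 + T) *ᵥ Pi.single i 1 ∈ W) ∧
      ∀ u ∈ W, ∀ j ∈ J, ((1 - T) *ᵥ u) j = 0 := by
  classical
  obtain ⟨κ, a, ha, hsp, hli⟩ :=
    exists_linearIndependent' (K := L) fun i : Fin N => W.mkQ (Pi.single i 1)
  have := Fintype.ofInjective a ha
  set v : Fin N → (Fin N → L) ⧸ W := fun i => W.mkQ (Pi.single i 1) with hv
  have htop : span L (Set.range v) = ⊤ := by
    rw [hv, show (fun i : Fin N => W.mkQ (Pi.single i 1)) = W.mkQ ∘ Pi.basisFun L (Fin N) from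
      funext fun i => by simp, Set.range_comp, span_image, (Pi.basisFun L (Fin N)).span_eq,
      Submodule.map_top, Submodule.range_mkQ]
  let b : Basis κ L ((Fin N → L) ⧸ W) := Basis.mk hli (by rw [hsp, htop])
  set J : Finset (Fin N) := Finset.univ.map ⟨a, ha⟩ with hJ
  set T : Matrix (Fin N) (Fin N) L := fun j i =>
    if h : ∃ k, a k = j then (if i ∈ J then 0 else -(b.repr (v i) h.choose)) else 0 with hT
  have hTa : ∀ k i, i ∉ J → T (a k) i = -(b.repr (v i) k) := by
    intro k i hi
    have h : ∃ k', a k' = a k := ⟨k, rfl⟩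
    simp only [hT, dif_pos h, if_neg hi]
    rw [ha h.choose_spec]
  have hzero : ∀ j i, j ∉ J ∨ i ∈ J → T j i = 0 := by
    intro j i h
    simp only [hT]
    split_ifs with h1 h2
    · rfl
    · exact absurd (h.resolve_right h2) (by simpa [hJ] using h1)
    · rfl
  have hmem : ∀ i, i ∉ J → (1 + T) *ᵥ Pi.single i 1 ∈ W := by
    intro i hi
    rw [← Submodule.Quotient.mk_eq_zero, add_mulVec, one_mulVec]
    have hcol : T *ᵥ Pi.single i 1 = ∑ k, T (a k) i • Pi.single (a k) (1 : L) := by
      funext j
      rw [mulVec_single_one, col_apply, Finset.sum_apply]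
      simp only [Pi.smul_apply, Pi.single_apply, smul_eq_mul, mul_ite, mul_one, mul_zero]
      by_cases h : ∃ k, a k = j
      · obtain ⟨k, rfl⟩ := h
        rw [Finset.sum_eq_single k (fun l _ hl => if_neg fun e => hl (ha e).symm) (by simp)]
        simp
      · rw [hzero j i (Or.inl (by simpa [hJ] using h)), Finset.sum_eq_zero]
        exact fun k _ => if_neg fun e => h ⟨k, e.symm⟩
    rw [hcol, ← Submodule.mkQ_apply, map_add, map_sum]
    have hr : v i = ∑ k, b.repr (v i) k • v (a k) := by
      conv_lhs => rw [← b.sum_repr (v i)]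
      refine Finset.sum_congr rfl fun k _ => ?_
      rw [Basis.mk_apply]
      rfl
    simp only [map_smul, hTa _ i hi]
    change v i + ∑ k, (-(b.repr (v i) k)) • v (a k) = 0
    simp only [neg_smul, Finset.sum_neg_distrib]
    rw [← hr, add_neg_cancel]
  refine ⟨J, T, ?_, hzero, hmem, fun u hu j hj => ?_⟩
  · have h1 := Submodule.finrank_quotient_add_finrank W
    rw [finrank_eq_card_basis b, finrank_fin_fun] at h1
    simpa [hJ] using h1
  · set z : Fin N → L := (1 - T) *ᵥ u with hz
    have key : ∀ i, i ∉ J → z i = u i := by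
      intro i hi
      rw [hz, sub_mulVec, one_mulVec, Pi.sub_apply]
      have : (T *ᵥ u) i = 0 := by
        simp only [mulVec, dotProduct]
        exact Finset.sum_eq_zero fun l _ => by rw [hzero i l (Or.inl hi), zero_mul]
      rw [this, sub_zero]
    obtain ⟨k, -, rfl⟩ := Finset.mem_map.1 hj
    have hsum : ∑ l, z (a l) • v (a l) = 0 := by
      have hexp : u = ∑ i, z i • ((1 + T) *ᵥ Pi.single i 1) := by
        have h2 : (1 + T) * (1 - T) = 1 := by
          have : T * T = 0 := by
            ext r c
            rw [mul_apply]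
            refine Finset.sum_eq_zero fun l _ => ?_
            by_cases hl : l ∈ J
            · rw [hzero r l (Or.inr hl), zero_mul]
            · rw [hzero l c (Or.inl hl), mul_zero]
          rw [mul_sub, mul_one, add_mul, one_mul, this, add_zero, add_sub_cancel_right]
        conv_lhs => rw [← one_mulVec u, ← h2, ← mulVec_mulVec, ← hz,
          pi_eq_sum_univ' z]
        rw [mulVec_sum]
        exact Finset.sum_congr rfl fun i _ => mulVec_smul _ _ _
      have h0 : W.mkQ u = 0 := (Submodule.Quotient.mk_eq_zero W).2 hu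
      rw [hexp, map_sum, ← Finset.sum_add_sum_compl J] at h0
      have h1 : ∑ i ∈ Jᶜ, W.mkQ (z i • ((1 + T) *ᵥ Pi.single i 1)) = 0 :=
        Finset.sum_eq_zero fun i hi => by
          rw [map_smul, Submodule.mkQ_apply,
            (Submodule.Quotient.mk_eq_zero W).2 (hmem i (by simpa using hi)), smul_zero]
      rw [h1, add_zero, hJ, Finset.sum_map] at h0
      rw [← h0]
      refine Finset.sum_congr rfl fun l _ => ?_
      have : T *ᵥ Pi.single (a l) (1 : L) = 0 := by
        funext r
        rw [mulVec_single_one, col_apply, hzero r (a l) (Or.inr (by simp [hJ]))]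
        rfl
      simp only [Function.Embedding.coeFn_mk]
      rw [add_mulVec, one_mulVec, this, add_zero, map_smul]
    exact Fintype.linearIndependent_iff.1 hli (fun l => z (a l)) hsum k

/-- Few parameters describe the pair. -/
theorem exists_small_generators {k : Type*} [Field k] [Algebra k L]
    (x y : Matrix (Fin N) (Fin N) L) {M : ℕ}
    (hM : finrank L (Algebra.adjoin L {x, y}) ≤ M) :
    ∃ s : Finset L, 4 * s.card ≤ 7 * N ^ 2 + 4 * M ^ 2 ∧
      ∀ i j, x i j ∈ Algebra.adjoin k (s : Set L) ∧ y i j ∈ Algebra.adjoin k (s : Set L) := by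
  classical
  obtain ⟨W, hW, hlo, hhi⟩ := exists_inv_subspace x y hM
  obtain ⟨J, T, hcard, hzero, hmem, hker⟩ := exists_unipotent W
  set A := (1 - T) * x * (1 + T) with hA
  set A' := (1 - T) * y * (1 + T) with hA'
  have hblock : ∀ j ∈ J, ∀ i, i ∉ J → A j i = 0 ∧ A' j i = 0 := by
    intro j hj i hi
    constructor
    · have := hker _ (hW _ (hmem i hi)).1 j hj
      rwa [mulVec_mulVec, mulVec_mulVec, mulVec_single_one, col_apply] at this
    · have := hker _ (hW _ (hmem i hi)).2 j hj
      rwa [mulVec_mulVec, mulVec_mulVec, mulVec_single_one, col_apply] at this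
  set P := J ×ˢ Jᶜ with hP
  set s : Finset L := P.image (fun p => T p.1 p.2) ∪
    (Pᶜ.image (fun p => A p.1 p.2) ∪ Pᶜ.image (fun p => A' p.1 p.2)) with hs
  refine ⟨s, ?_, ?_⟩
  · have h1 : s.card ≤ P.card + (Pᶜ.card + Pᶜ.card) := (Finset.card_union_le _ _).trans
      (Nat.add_le_add Finset.card_image_le ((Finset.card_union_le _ _).trans
        (Nat.add_le_add Finset.card_image_le Finset.card_image_le)))
    have h2 : P.card + Pᶜ.card = N * N := by
      rw [Finset.card_add_card_compl]; simp
    have h3 : P.card = J.card * finrank L W := by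
      rw [hP, Finset.card_product, Finset.card_compl, Fintype.card_fin]
      congr 1; omega
    obtain ⟨e, he⟩ : ∃ e, 2 * finrank L W = N + e := ⟨2 * finrank L W - N, by omega⟩
    have he2 : e ≤ 2 * M := by omega
    have h4 : e * e ≤ 2 * M * (2 * M) := Nat.mul_le_mul he2 he2
    nlinarith
  · set S := Algebra.adjoin k (s : Set L) with hS
    have hTmem : ∀ j i, T j i ∈ S := by
      intro j i
      by_cases h : j ∉ J ∨ i ∈ J
      · rw [hzero j i h]; exact S.zero_mem
      · push Not at h
        exact Algebra.subset_adjoin (Finset.mem_union_left _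
          (Finset.mem_image.2 ⟨(j, i), by simp [hP, h], rfl⟩))
    have hAmem : ∀ j i, A j i ∈ S ∧ A' j i ∈ S := by
      intro j i
      by_cases h : (j, i) ∈ P
      · simp only [hP, Finset.mem_product, Finset.mem_compl] at h
        rw [(hblock j h.1 i h.2).1, (hblock j h.1 i h.2).2]
        exact ⟨S.zero_mem, S.zero_mem⟩
      · exact ⟨Algebra.subset_adjoin (Finset.mem_union_right _ (Finset.mem_union_left _
          (Finset.mem_image.2 ⟨(j, i), by simpa using h, rfl⟩))),
          Algebra.subset_adjoin (Finset.mem_union_right _ (Finset.mem_union_right _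
          (Finset.mem_image.2 ⟨(j, i), by simpa using h, rfl⟩)))⟩
    have hmul : ∀ {p q : Matrix (Fin N) (Fin N) L}, (∀ i j, p i j ∈ S) → (∀ i j, q i j ∈ S) →
        ∀ i j, (p * q) i j ∈ S := fun hp hq i j => by
      rw [mul_apply]
      exact S.sum_mem fun l _ => S.mul_mem (hp i l) (hq l j)
    have hT2 : T * T = 0 := by
      ext r c
      rw [mul_apply]
      refine Finset.sum_eq_zero fun l _ => ?_
      by_cases hl : l ∈ J
      · rw [hzero r l (Or.inr hl), zero_mul]
      · rw [hzero l c (Or.inl hl), mul_zero]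
    have hone : ∀ i j, (1 : Matrix (Fin N) (Fin N) L) i j ∈ S := fun i j => by
      rw [one_apply]; split_ifs
      · exact S.one_mem
      · exact S.zero_mem
    have hsub : ∀ i j, (1 - T) i j ∈ S := fun i j => S.sub_mem (hone i j) (hTmem i j)
    have hadd : ∀ i j, (1 + T) i j ∈ S := fun i j => S.add_mem (hone i j) (hTmem i j)
    have hinv : (1 + T) * (1 - T) = 1 := by
      rw [mul_sub, mul_one, add_mul, one_mul, hT2, add_zero, add_sub_cancel_right]
    have hx : x = (1 + T) * A * (1 - T) := by
      rw [hA, ← mul_assoc, ← mul_assoc, hinv, one_mul, mul_assoc, hinv, mul_one]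
    have hy : y = (1 + T) * A' * (1 - T) := by
      rw [hA', ← mul_assoc, ← mul_assoc, hinv, one_mul, mul_assoc, hinv, mul_one]
    intro i j
    constructor
    · rw [hx]; exact hmul (hmul hadd fun a b => (hAmem a b).1) hsub i j
    · rw [hy]; exact hmul (hmul hadd fun a b => (hAmem a b).2) hsub i j

/-- Transcendence degree of a field generated by such a pair. -/
theorem trdeg_le {k : Type*} [Field k] [Algebra k L] (x y : Matrix (Fin N) (Fin N) L) {M : ℕ}
    (hM : finrank L (Algebra.adjoin L {x, y}) ≤ M)
    (hgen : Algebra.IsAlgebraic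
      (Algebra.adjoin k (Set.range (Function.uncurry x) ∪ Set.range (Function.uncurry y))) L) :
    Algebra.trdeg k L ≤ ((7 * N ^ 2 + 4 * M ^ 2) / 4 : ℕ) := by
  obtain ⟨s, hs, hmem⟩ := exists_small_generators (k := k) x y hM
  have hle : Algebra.adjoin k (Set.range (Function.uncurry x) ∪ Set.range (Function.uncurry y))
      ≤ Algebra.adjoin k (s : Set L) := by
    refine Algebra.adjoin_le ?_
    rintro _ (⟨⟨i, j⟩, rfl⟩ | ⟨⟨i, j⟩, rfl⟩)
    · exact (hmem i j).1
    · exact (hmem i j).2
  have : Algebra.IsAlgebraic (Algebra.adjoin k (s : Set L)) L := by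
    let _ := (Subalgebra.inclusion hle).toAlgebra
    have : IsScalarTower (Algebra.adjoin k (Set.range (Function.uncurry x) ∪
        Set.range (Function.uncurry y))) (Algebra.adjoin k (s : Set L)) L :=
      IsScalarTower.of_algebraMap_eq fun _ => rfl
    exact Algebra.IsAlgebraic.extendScalars
      (R := Algebra.adjoin k (Set.range (Function.uncurry x) ∪ Set.range (Function.uncurry y)))
      (Subalgebra.inclusion_injective hle)
  refine (Algebra.IsAlgebraic.trdeg_le_cardinalMk k (s : Set L)).trans ?_
  simp only [Finset.coe_sort_coe, Cardinal.mk_coe_finset, Nat.cast_le]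
  omega

/-- A spanning family over a central subfield bounds the dimension. -/
lemma finrank_adjoin_le {x y : Matrix (Fin N) (Fin N) L} {M : ℕ}
    (b : Fin M → Matrix (Fin N) (Fin N) L)
    (h1 : (1 : Matrix (Fin N) (Fin N) L) ∈ span L (Set.range b))
    (hx : ∀ i, x * b i ∈ span L (Set.range b)) (hy : ∀ i, y * b i ∈ span L (Set.range b)) :
    finrank L (Algebra.adjoin L {x, y}) ≤ M := by
  set V := span L (Set.range b) with hV
  have hstab : ∀ a ∈ Algebra.adjoin L {x, y}, ∀ u ∈ V, a * u ∈ V := by
    intro a ha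
    induction ha using Algebra.adjoin_induction with
    | mem z hz =>
      intro u hu
      induction hu using Submodule.span_induction with
      | mem w hw =>
        obtain ⟨i, rfl⟩ := hw
        rcases hz with rfl | rfl
        · exact hx i
        · exact hy i
      | zero => simp
      | add p q _ _ hp hq => rw [mul_add]; exact V.add_mem hp hq
      | smul c p _ hp => rw [mul_smul_comm]; exact V.smul_mem c hp
    | algebraMap r => intro u hu; rw [← Algebra.smul_def]; exact V.smul_mem r hu
    | add p q _ _ hp hq => intro u hu; rw [add_mul]; exact V.add_mem (hp u hu) (hq u hu)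
    | mul p q _ _ hp hq => intro u hu; rw [mul_assoc]; exact hp _ (hq u hu)
  have hle : (Algebra.adjoin L {x, y}).toSubmodule ≤ V := fun a ha => by
    simpa using hstab a ha 1 h1
  exact (Submodule.finrank_mono hle).trans ((finrank_range_le_card b).trans_eq (Fintype.card_fin M))

end Vale.Agent.P199.Bound
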