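import Vale.Agent.P199.Closure
import Vale.Agent.P199.Fixed
import Vale.Agent.P199.Division
import Vale.Agent.P199.TrdegBound

/-!
P199: from semilinearly irreducible pairs with many parameters and prescribed degrees to the
counterexample.
-/

namespace Vale.Agent.P199

open Matrix Division

/-- The degrees imposed on the elements of the list. -/
def degq (i : ℕ) : ℕ := 2 ^ (i + 4)

/-- Both forms of Kurosh's question have a negative answer. -/
def KuroshFails : Prop :=
  ∃ (k D : Type) (_ : Field k) (_ : DivisionRing D) (_ : Algebra k D) (x y : D),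
    Algebra.adjoin k {x, y} = ⊤ ∧ Algebra.IsAlgebraic k D ∧ ¬ Module.Finite k D ∧
    Algebra.IsAlgebraic (Subring.center D) D ∧ ¬ Module.Finite (Subring.center D) D

/-- A pair at level `n` with the first `j` identities and many parameters. -/
structure GoodPair (j n : ℕ) where
  L : Type
  [fld : Field L]
  [alg : Algebra ℂ L]
  ι : Type
  σ : ι → L →+* L
  H : ι → Matrix (Idx n) (Idx n) ℤ
  unit : ∀ i, IsUnit (castMat L (H i))
  irred : Irred H σ
  x : Matrix (Idx n) (Idx n) L
  y : Matrix (Idx n) (Idx n) L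
  fixx : ∀ i, castMat L (H i) * x.map (σ i) = x * castMat L (H i)
  fixy : ∀ i, castMat L (H i) * y.map (σ i) = y * castMat L (H i)
  c : ℕ → ℕ → L
  fixc : ∀ a b i, σ i (c a b) = c a b
  root : ∀ i ≤ j, npEval c x y (bseq i) ^ degq i +
    ∑ l ∈ Finset.range (degq i), c i l • npEval c x y (bseq i) ^ l = 0
  gen : Algebra.IsAlgebraic
    (Algebra.adjoin ℂ (Set.range (Function.uncurry x) ∪ Set.range (Function.uncurry y))) L
  big : ((15 * 4 ^ n / 8 - 2 : ℕ) : Cardinal) ≤ Algebra.trdeg ℂ L

attribute [instance] GoodPair.fld GoodPair.alg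

/-- Reindexing does not change the dimension of a generated algebra. -/
theorem finrank_adjoin_reindex {L : Type*} [Field L] {X Y : Type*} [Fintype X] [DecidableEq X]
    [Fintype Y] [DecidableEq Y] (e : X ≃ Y) (x y : Matrix X X L) :
    Module.finrank L (Algebra.adjoin L {Matrix.reindex e e x, Matrix.reindex e e y}) =
      Module.finrank L (Algebra.adjoin L {x, y}) := by
  let f : Matrix X X L ≃ₐ[L] Matrix Y Y L := Matrix.reindexAlgEquiv L L e
  have h1 : Algebra.adjoin L {Matrix.reindex e e x, Matrix.reindex e e y} =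
      (Algebra.adjoin L {x, y}).map (f : Matrix X X L →ₐ[L] Matrix Y Y L) := by
    rw [AlgHom.map_adjoin, Set.image_pair]
    rfl
  rw [h1]
  exact ((Algebra.adjoin L {x, y}).equivMapOfInjective _ f.injective).toLinearEquiv.finrank_eq.symm

/-- More than `j` dimensions are generated. -/
theorem GoodPair.lt_finrank {j n : ℕ} (P : GoodPair j n) (hn : j + 4 ≤ n) :
    j < Module.finrank P.L (Algebra.adjoin P.L {P.x, P.y}) := by
  by_contra hle
  push Not at hle
  let e : Idx n ≃ Fin (2 ^ n) := Fintype.equivFinOfCardEq (by simp)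
  have h1 : Module.finrank P.L
      (Algebra.adjoin P.L {Matrix.reindex e e P.x, Matrix.reindex e e P.y}) ≤ j := by
    rwa [finrank_adjoin_reindex]
  have hset : ∀ z : Matrix (Idx n) (Idx n) P.L,
      Set.range (Function.uncurry (Matrix.reindex e e z)) = Set.range (Function.uncurry z) := by
    intro z
    ext a
    constructor
    · rintro ⟨⟨u, v⟩, rfl⟩
      exact ⟨(e.symm u, e.symm v), rfl⟩
    · rintro ⟨⟨u, v⟩, rfl⟩
      exact ⟨(e u, e v), by simp [Function.uncurry]⟩
  have h2 := Bound.trdeg_le (k := ℂ) _ _ h1 (by rw [hset, hset]; exact P.gen)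
  have h3 := P.big.trans h2
  rw [Nat.cast_le, ← pow_mul, mul_comm n 2, pow_mul] at h3
  norm_num at h3
  have h4 : 256 * 4 ^ j ≤ 4 ^ n := by
    calc 256 * 4 ^ j = 4 ^ (j + 4) := by rw [pow_add]; norm_num; ring
      _ ≤ 4 ^ n := Nat.pow_le_pow_right (by norm_num) hn
  have h5 : j ^ 2 ≤ 4 ^ j := by
    calc j ^ 2 ≤ (2 ^ j) ^ 2 := Nat.pow_le_pow_left Nat.lt_two_pow_self.le 2
      _ = 4 ^ j := by rw [← pow_mul, mul_comm, pow_mul]; norm_num
  have h6 : 1 ≤ 4 ^ j := Nat.one_le_pow _ _ (by norm_num)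
  omega

/-- **Assembly.** -/
theorem kurosh_of_pairs (h : ∀ j, ∃ n₀, ∀ n, n₀ ≤ n → Nonempty (GoodPair j n)) : KuroshFails := by
  refine kurosh_false_of_approx degq fun j => ?_
  obtain ⟨n₀, hn₀⟩ := h j
  obtain ⟨P⟩ := hn₀ (max n₀ (j + 4)) (le_max_left _ _)
  exact Fixed.approx P.σ (fun i => castMat P.L (P.H i)) P.unit P.irred P.x P.y P.fixx P.fixy P.c
    P.fixc degq j P.root (P.lt_finrank (le_max_right _ _))

end Vale.Agent.P199
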