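import Mathlib

/-!
P199, closure step. If for every `j` there is a domain `D_j` over a field `K_j`, with two elements
satisfying the first `j` prescribed polynomial identities and generating more than `j` dimensions,
then an ultraproduct contains a finitely generated infinite-dimensional algebraic division algebra.
-/

namespace Vale.Agent.P199

/-- A monomial `z * (product of parameters) * word in x, y`. -/
abbrev Term := ℤ × List (ℕ × ℕ) × List Bool

/-- A noncommutative polynomial in `x`, `y` with integer polynomials in parameters as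
coefficients. -/
abbrev NPoly := List Term

section eval
variable {K D : Type*} [CommRing K] [Ring D] [Algebra K D]

/-- The coefficient of a monomial. -/
def coeffEval (c : ℕ → ℕ → K) (t : Term) : K :=
  (t.1 : K) * (t.2.1.map fun p => c p.1 p.2).prod

/-- The value of a word. -/
def wordEval (x y : D) (w : List Bool) : D :=
  (w.map fun s => cond s x y).prod

/-- The value of a polynomial. -/
def npEval (c : ℕ → ℕ → K) (x y : D) (b : NPoly) : D :=
  (b.map fun t => coeffEval c t • wordEval x y t.2.2).sum

end eval

/-- Only parameters of index below `i` occur. -/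
def NPoly.Below (b : NPoly) (i : ℕ) : Prop := ∀ t ∈ b, ∀ p ∈ t.2.1, p.1 < i

instance (b : NPoly) (i : ℕ) : Decidable (b.Below i) :=
  inferInstanceAs (Decidable (∀ t ∈ b, ∀ p ∈ t.2.1, p.1 < i))

/-- The list of all polynomials, each one recurring; the `i`-th uses parameters of index `< i`. -/
def bseq (i : ℕ) : NPoly :=
  let b := ((Encodable.decode (α := NPoly) i.unpair.1).getD [])
  if b.Below i then b else []

theorem bseq_below (i : ℕ) : (bseq i).Below i := by
  unfold bseq
  dsimp only
  split
  · assumption
  · intro t ht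
    simp at ht

theorem exists_bseq (b : NPoly) : ∃ i, bseq i = b := by
  obtain ⟨n, hn⟩ : ∃ n, b.Below n := by
    refine ⟨((b.flatMap fun t => t.2.1).map fun p => p.1 + 1).sum, fun t ht p hp => ?_⟩
    have h : p.1 + 1 ∈ (b.flatMap fun t => t.2.1).map fun p => p.1 + 1 :=
      List.mem_map.2 ⟨p, List.mem_flatMap.2 ⟨t, ht, hp⟩, rfl⟩
    exact List.le_sum_of_mem h
  refine ⟨Nat.pair (Encodable.encode b) n, ?_⟩
  have h : b.Below (Nat.pair (Encodable.encode b) n) := fun t ht p hp =>
    (hn t ht p hp).trans_le (Nat.right_le_pair _ _)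
  simp [bseq, h]

section values
variable {K D : Type*} [CommRing K] [Ring D] [Algebra K D] (c : ℕ → ℕ → K) (x y : D)

theorem npEval_append (a b : NPoly) :
    npEval c x y (a ++ b) = npEval c x y a + npEval c x y b := by
  simp [npEval]

theorem wordEval_append (v w : List Bool) :
    wordEval x y (v ++ w) = wordEval x y v * wordEval x y w := by
  simp [wordEval]

/-- The subring of all values. -/
def values : Subring D where
  carrier := Set.range (npEval c x y)
  zero_mem' := ⟨[], by simp [npEval]⟩
  one_mem' := ⟨[(1, [], [])], by simp [npEval, coeffEval, wordEval]⟩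
  add_mem' := by
    rintro _ _ ⟨a, rfl⟩ ⟨b, rfl⟩
    exact ⟨a ++ b, npEval_append c x y a b⟩
  neg_mem' := by
    rintro _ ⟨a, rfl⟩
    refine ⟨a.map fun t => (-t.1, t.2), ?_⟩
    induction a with
    | nil => simp [npEval]
    | cons t a ih =>
      simp only [npEval, List.map_cons, List.sum_cons, List.map_map] at ih ⊢
      rw [ih, neg_add_rev, add_comm (-_) (-_)]
      simp [coeffEval]
  mul_mem' := by
    rintro _ _ ⟨a, rfl⟩ ⟨b, rfl⟩
    refine ⟨a.flatMap fun s => b.map fun t => (s.1 * t.1, s.2.1 ++ t.2.1, s.2.2 ++ t.2.2), ?_⟩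
    induction a with
    | nil => simp [npEval]
    | cons s a ih =>
      rw [List.flatMap_cons, npEval_append, ih]
      have hs : npEval c x y (s :: a) =
          coeffEval c s • wordEval x y s.2.2 + npEval c x y a := by simp [npEval]
      rw [hs, add_mul]
      congr 1
      simp only [npEval, List.map_map, ← List.sum_map_mul_left, Function.comp_def]
      congr 1
      refine List.map_congr_left fun t _ => ?_
      rw [smul_mul_smul_comm, ← wordEval_append]
      congr 1
      simp only [coeffEval, Int.cast_mul, List.map_append, List.prod_append]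
      ring

theorem mem_values_left : x ∈ values c x y :=
  ⟨[(1, [], [true])], by simp [npEval, coeffEval, wordEval]⟩

theorem mem_values_right : y ∈ values c x y :=
  ⟨[(1, [], [false])], by simp [npEval, coeffEval, wordEval]⟩

theorem mem_values_param (k l : ℕ) : algebraMap K D (c k l) ∈ values c x y :=
  ⟨[(1, [(k, l)], [])], by simp [npEval, coeffEval, wordEval, Algebra.algebraMap_eq_smul_one]⟩

end values

/-- Artin–Tate: a finitely generated infinite-dimensional algebra is infinite over its centre
if the centre is a field. -/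
theorem not_finite_center {k D : Type*} [Field k] [DivisionRing D] [Algebra k D] (x y : D)
    (htop : Algebra.adjoin k {x, y} = ⊤) (hinf : ¬ Module.Finite k D) :
    ¬ Module.Finite (Subring.center D) D := by
  intro hZ
  apply hinf
  let Z := Subring.center D
  let : Algebra k Z :=
    ((algebraMap k D).codRestrict Z fun r => Subring.mem_center_iff.2 fun d =>
      (Algebra.commutes r d).symm).toAlgebra
  have : IsScalarTower k Z D := IsScalarTower.of_algebraMap_eq fun _ => rfl
  classical
  let e := Module.finBasis Z D
  set m := Module.finrank Z D with hm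
  let T : Finset Z :=
    (Finset.univ.image fun a : Fin m × Fin m × Fin m => e.repr (e a.1 * e a.2.1) a.2.2) ∪
      (Finset.univ.image fun a => e.repr x a) ∪ (Finset.univ.image fun a => e.repr y a) ∪
      (Finset.univ.image fun a => e.repr 1 a)
  let A : Subalgebra k Z := Algebra.adjoin k (T : Set Z)
  let S : Set D := {d | ∀ a, e.repr d a ∈ A}
  have hxS : x ∈ S := fun a => Algebra.subset_adjoin (by simp [T])
  have hyS : y ∈ S := fun a => Algebra.subset_adjoin (by simp [T])
  have h1S : (1 : D) ∈ S := fun a => Algebra.subset_adjoin (by simp [T])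
  have hmul : ∀ d ∈ S, ∀ d' ∈ S, d * d' ∈ S := by
    intro d hd d' hd' a
    have hexp : d * d' = ∑ i, ∑ j, (e.repr d i * e.repr d' j) • (e i * e j) := by
      conv_lhs => rw [← e.sum_repr d, ← e.sum_repr d']
      simp only [Finset.sum_mul, Finset.mul_sum, smul_mul_smul_comm]
      rw [Finset.sum_comm]
    rw [hexp]
    simp only [map_sum, map_smul, Finsupp.coe_finsetSum, Finset.sum_apply, Finsupp.coe_smul,
      Pi.smul_apply, smul_eq_mul]
    refine A.sum_mem fun i _ => A.sum_mem fun j _ => A.mul_mem (A.mul_mem (hd i) (hd' j)) ?_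
    exact Algebra.subset_adjoin (by simp [T])
  have hall : ∀ d : D, d ∈ S := by
    intro d
    have hd : d ∈ Algebra.adjoin k {x, y} := htop ▸ Algebra.mem_top
    induction hd using Algebra.adjoin_induction with
    | mem u hu =>
      rcases hu with rfl | rfl
      · exact hxS
      · exact hyS
    | algebraMap r =>
      intro a
      have : algebraMap k D r = algebraMap k Z r • (1 : D) := by
        rw [algebraMap_smul, Algebra.algebraMap_eq_smul_one]
      rw [this, map_smul, Finsupp.coe_smul, Pi.smul_apply, smul_eq_mul]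
      exact A.mul_mem (A.algebraMap_mem r) (h1S a)
    | add u v _ _ hu hv =>
      intro a
      rw [map_add, Finsupp.coe_add, Pi.add_apply]
      exact A.add_mem (hu a) (hv a)
    | mul u v _ _ hu hv => exact hmul u hu v hv
  have hne : (e.repr 1) ≠ 0 := by
    simp
  obtain ⟨a₀, ha₀⟩ := Finsupp.ne_iff.1 hne
  rw [Finsupp.coe_zero, Pi.zero_apply] at ha₀
  let u : Z := e.repr 1 a₀
  have hu : ∀ z : Z, z * u ∈ A := fun z => by
    have := hall (z • (1 : D)) a₀
    rwa [map_smul, Finsupp.coe_smul, Pi.smul_apply, smul_eq_mul] at this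
  have hA : (Algebra.adjoin k (((insert u⁻¹ T : Finset Z)) : Set Z)) = ⊤ := by
    refine eq_top_iff.2 fun z _ => ?_
    have h1 : z * u ∈ Algebra.adjoin k (((insert u⁻¹ T : Finset Z)) : Set Z) :=
      Algebra.adjoin_mono (by simp) (hu z)
    have h2 : u⁻¹ ∈ Algebra.adjoin k (((insert u⁻¹ T : Finset Z)) : Set Z) :=
      Algebra.subset_adjoin (by simp)
    have hu0 : u ≠ 0 := ha₀
    have h3 := mul_mem h1 h2
    rwa [mul_assoc, mul_inv_cancel₀ hu0, mul_one] at h3
  have : Algebra.FiniteType k Z := ⟨⟨_, hA⟩⟩
  have : Module.Finite k Z := finite_of_finite_type_of_isJacobsonRing k Z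
  exact Module.Finite.trans Z D

/-- A domain spanned, as an algebra, by algebraic elements all of whose polynomials are
algebraic is a division ring. -/
theorem isUnit_of_isAlgebraic {k A : Type*} [Field k] [Ring A] [IsDomain A] [Algebra k A]
    (h : Algebra.IsAlgebraic k A) (a : A) : IsUnit a ∨ a = 0 := by
  by_cases ha : a = 0
  · exact Or.inr ha
  left
  have hi : IsIntegral k a := (h.isAlgebraic a).isIntegral
  have : Module.Finite k (Algebra.adjoin k {a}) := Module.Finite.iff_fg.2 hi.fg_adjoin_singleton
  have hu : IsUnit (⟨a, Algebra.self_mem_adjoin_singleton k a⟩ : Algebra.adjoin k {a}) :=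
    FiniteDimensional.isUnit k fun h0 => ha (congrArg Subtype.val h0)
  exact hu.map (Algebra.adjoin k {a}).val

/-- A finitely generated infinite-dimensional algebraic subalgebra of a domain is a
counterexample to both forms of Kurosh's problem. -/
theorem kurosh_false_of_values {K D : Type} [Field K] [Ring D] [IsDomain D] [Algebra K D]
    (c : ℕ → ℕ → K) (x y : D) (k : Subfield K)
    (hk : k = Subfield.closure (Set.range fun p : ℕ × ℕ => c p.1 p.2))
    (hval : ∀ b : NPoly, IsIntegral k (npEval c x y b))
    (hinf : ¬ Module.Finite k (Algebra.adjoin k {x, y})) :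
    ∃ (k D : Type) (_ : Field k) (_ : DivisionRing D) (_ : Algebra k D) (x y : D),
      Algebra.adjoin k {x, y} = ⊤ ∧ Algebra.IsAlgebraic k D ∧ ¬ Module.Finite k D ∧
      Algebra.IsAlgebraic (Subring.center D) D ∧ ¬ Module.Finite (Subring.center D) D := by
  have hR : ∀ r ∈ Subring.closure (Set.range fun p : ℕ × ℕ => c p.1 p.2),
      algebraMap K D r ∈ values c x y := by
    intro r hr
    induction hr using Subring.closure_induction with
    | mem u hu =>
      obtain ⟨p, rfl⟩ := hu
      exact mem_values_param c x y p.1 p.2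
    | zero => simp
    | one => simp
    | add u v _ _ hu hv => rw [map_add]; exact add_mem hu hv
    | neg u _ hu => rw [map_neg]; exact neg_mem hu
    | mul u v _ _ hu hv => rw [map_mul]; exact mul_mem hu hv
  set E := Algebra.adjoin k {x, y} with hE
  have hden : ∀ d ∈ E, ∃ s : k, s ≠ 0 ∧ algebraMap k D s ∈ values c x y ∧
      algebraMap k D s * d ∈ values c x y := by
    intro d hd
    induction hd using Algebra.adjoin_induction with
    | mem u hu =>
      refine ⟨1, one_ne_zero, by simp, ?_⟩
      rw [map_one, one_mul]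
      rcases hu with h | h <;> rw [h]
      · exact mem_values_left c x y
      · exact mem_values_right c x y
    | algebraMap r =>
      have hr' : (r : K) ∈ Subfield.closure (Set.range fun p : ℕ × ℕ => c p.1 p.2) := hk ▸ r.2
      obtain ⟨a, ha, b, hb, hr⟩ := Subfield.mem_closure_iff.1 hr'
      by_cases hb0 : b = 0
      · refine ⟨1, one_ne_zero, by simp, ?_⟩
        have : r = 0 := Subtype.ext (by rw [← hr, hb0, div_zero]; rfl)
        simp [this]
      · have hle : Subring.closure (Set.range fun p : ℕ × ℕ => c p.1 p.2) ≤ k.toSubring :=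
          Subring.closure_le.2 fun u hu => hk ▸ Subfield.subset_closure hu
        refine ⟨⟨b, hle hb⟩, fun h0 => hb0 (congrArg Subtype.val h0), hR b hb, ?_⟩
        change algebraMap K D b * algebraMap K D (r : K) ∈ values c x y
        rw [← map_mul, ← hr, mul_div_cancel₀ _ hb0]
        exact hR a ha
    | add u v _ _ hu hv =>
      obtain ⟨s, hs0, hs, hsu⟩ := hu
      obtain ⟨t, ht0, ht, htv⟩ := hv
      refine ⟨s * t, mul_ne_zero hs0 ht0, by rw [map_mul]; exact mul_mem hs ht, ?_⟩
      have : algebraMap k D (s * t) * (u + v) =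
          algebraMap k D t * (algebraMap k D s * u) +
            algebraMap k D s * (algebraMap k D t * v) := by
        rw [mul_add, ← mul_assoc, ← mul_assoc, ← map_mul, ← map_mul, mul_comm t s]
      rw [this]
      exact add_mem (mul_mem ht hsu) (mul_mem hs htv)
    | mul u v _ _ hu hv =>
      obtain ⟨s, hs0, hs, hsu⟩ := hu
      obtain ⟨t, ht0, ht, htv⟩ := hv
      refine ⟨s * t, mul_ne_zero hs0 ht0, by rw [map_mul]; exact mul_mem hs ht, ?_⟩
      have : algebraMap k D (s * t) * (u * v) =
          (algebraMap k D s * u) * (algebraMap k D t * v) := by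
        rw [map_mul, mul_assoc (algebraMap k D s) u, ← mul_assoc u, ← Algebra.commutes t u]
        simp only [mul_assoc]
      rw [this]
      exact mul_mem hsu htv
  have halg : Algebra.IsAlgebraic k E := ⟨fun d => by
    obtain ⟨s, hs0, -, hsd⟩ := hden d d.2
    obtain ⟨b, hb⟩ := hsd
    have h1 : IsIntegral k (s • (d : D)) := by
      rw [Algebra.smul_def, ← hb]
      exact hval b
    have h2 : IsIntegral k (d : D) := by
      simpa [smul_smul, inv_mul_cancel₀ hs0] using h1.smul s⁻¹
    exact ((isIntegral_algHom_iff E.val Subtype.val_injective).1 h2).isAlgebraic⟩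
  let _ : DivisionRing E := DivisionRing.ofIsUnitOrEqZero (isUnit_of_isAlgebraic halg)
  let x' : E := ⟨x, Algebra.subset_adjoin (Set.mem_insert _ _)⟩
  let y' : E := ⟨y, Algebra.subset_adjoin (Set.mem_insert_of_mem _ rfl)⟩
  have htop : Algebra.adjoin k {x', y'} = ⊤ := by
    refine eq_top_iff.2 fun d _ => ?_
    have h1 : (Algebra.adjoin k {x', y'}).map E.val = E := by
      rw [AlgHom.map_adjoin, Set.image_insert_eq, Set.image_singleton]
      rfl
    obtain ⟨d', hd', hdd⟩ := Subalgebra.mem_map.1 (h1.ge d.2)
    rwa [Subtype.ext hdd] at hd'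
  refine ⟨k, E, inferInstance, inferInstance, inferInstance, x', y', htop, halg, hinf, ?_,
    not_finite_center x' y' htop hinf⟩
  let _ : Algebra k (Subring.center E) :=
    ((algebraMap k E).codRestrict _ fun r => Subring.mem_center_iff.2 fun d =>
      (Algebra.commutes r d).symm).toAlgebra
  have : IsScalarTower k (Subring.center E) E := IsScalarTower.of_algebraMap_eq fun _ => rfl
  exact ⟨fun d => (halg.isAlgebraic d).tower_top _⟩

/-- A span containing `1` and stable under left multiplication by the generators is everything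
generated by them. -/
theorem adjoin_le_span {K D : Type*} [Field K] [Ring D] [Algebra K D] (x y : D) (S : Set D)
    (h1 : (1 : D) ∈ Submodule.span K S) (hx : ∀ s ∈ S, x * s ∈ Submodule.span K S)
    (hy : ∀ s ∈ S, y * s ∈ Submodule.span K S) :
    (Algebra.adjoin K {x, y}).toSubmodule ≤ Submodule.span K S := by
  have key : ∀ d ∈ Algebra.adjoin K {x, y}, ∀ v ∈ Submodule.span K S,
      d * v ∈ Submodule.span K S := by
    intro d hd
    induction hd using Algebra.adjoin_induction with
    | mem u hu =>
      intro v hv
      have hu' : ∀ s ∈ S, u * s ∈ Submodule.span K S := by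
        rcases hu with rfl | rfl <;> assumption
      exact (Submodule.span_le (p := (Submodule.span K S).comap (LinearMap.mulLeft K u))).2 hu' hv
    | algebraMap r =>
      intro v hv
      rw [← Algebra.smul_def]
      exact Submodule.smul_mem _ r hv
    | add u v _ _ hu hv => intro w hw; rw [add_mul]; exact add_mem (hu w hw) (hv w hw)
    | mul u v _ _ hu hv => intro w hw; rw [mul_assoc]; exact hu _ (hv w hw)
  intro d hd
  simpa using key d hd 1 h1

/-- A monic relation with coefficients in a subfield gives integrality over it. -/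
theorem isIntegral_of_rel {K D : Type*} [Field K] [Ring D] [Algebra K D] (k : Subfield K) (n : ℕ)
    (a : ℕ → K) (ha : ∀ l, a l ∈ k) (v : D)
    (h : v ^ n + ∑ l ∈ Finset.range n, a l • v ^ l = 0) : IsIntegral k v := by
  refine ⟨Polynomial.X ^ n + ∑ l ∈ Finset.range n,
    Polynomial.C (⟨a l, ha l⟩ : k) * Polynomial.X ^ l, ?_, ?_⟩
  · exact Polynomial.monic_X_pow_add ((Polynomial.degree_sum_le _ _).trans_lt
      ((Finset.sup_lt_iff (WithBot.bot_lt_coe _)).2 fun l hl =>
        (Polynomial.degree_C_mul_X_pow_le _ _).trans_lt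
          (WithBot.coe_lt_coe.2 (Finset.mem_range.1 hl))))
  · rw [← Polynomial.aeval_def]
    simp only [map_add, map_pow, Polynomial.aeval_X, map_sum, map_mul, Polynomial.aeval_C]
    simp only [Algebra.smul_def] at h
    exact h

/-- A finite generated algebra has a finite spanning set stable under the generators. -/
theorem exists_stable_finset {K D : Type*} [Field K] [Ring D] [Algebra K D] (k : Subfield K)
    (x y : D) (h : Module.Finite k (Algebra.adjoin k {x, y})) :
    ∃ G : Finset D, (1 : D) ∈ Submodule.span K (G : Set D) ∧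
      (∀ v ∈ G, x * v ∈ Submodule.span K (G : Set D)) ∧
      ∀ v ∈ G, y * v ∈ Submodule.span K (G : Set D) := by
  classical
  set E := Algebra.adjoin k {x, y}
  obtain ⟨S, hS⟩ := h.fg_top
  have hE : ∀ d ∈ E, d ∈ Submodule.span K ((S.image E.val : Finset D) : Set D) := by
    intro d hd
    have h1 : (⟨d, hd⟩ : E) ∈ Submodule.span k (S : Set E) := by rw [hS]; trivial
    have h3 := Submodule.mem_map_of_mem (f := E.val.toLinearMap) h1
    rw [Submodule.map_span] at h3
    rw [Finset.coe_image]
    exact Submodule.span_le_restrictScalars k K _ h3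
  have hG : ∀ v ∈ S.image E.val, v ∈ E := fun v hv => by
    obtain ⟨e, -, rfl⟩ := Finset.mem_image.1 hv
    exact e.2
  exact ⟨S.image E.val, hE 1 E.one_mem,
    fun v hv => hE _ (E.mul_mem (Algebra.subset_adjoin (Set.mem_insert _ _)) (hG v hv)),
    fun v hv => hE _ (E.mul_mem (Algebra.subset_adjoin (Set.mem_insert_of_mem _ rfl)) (hG v hv))⟩

/-- The null ideal of an ultrafilter on a family of rings. -/
def nullIdeal (U : Ultrafilter ℕ) (R : ℕ → Type*) [∀ j, Ring (R j)] :
    Ideal ((j : ℕ) → R j) where
  carrier := {f | ∀ᶠ j in (U : Filter ℕ), f j = 0}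
  zero_mem' := Filter.Eventually.of_forall fun _ => rfl
  add_mem' {f g} hf hg := (hf.and hg).mono fun j hj => by simp [hj.1, hj.2]
  smul_mem' r f hf := hf.mono fun j hj => by simp [hj]

theorem mem_nullIdeal {U : Ultrafilter ℕ} {R : ℕ → Type*} [∀ j, Ring (R j)]
    {f : (j : ℕ) → R j} : f ∈ nullIdeal U R ↔ ∀ᶠ j in (U : Filter ℕ), f j = 0 :=
  Iff.rfl

instance nullIdeal_isTwoSided (U : Ultrafilter ℕ) (R : ℕ → Type*) [∀ j, Ring (R j)] :
    (nullIdeal U R).IsTwoSided :=
  ⟨fun {a} b ha => (mem_nullIdeal.1 ha).mono fun j hj => by simp [hj]⟩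

instance nullIdeal_isMaximal (U : Ultrafilter ℕ) (K : ℕ → Type*) [∀ j, Field (K j)] :
    (nullIdeal U K).IsMaximal := by
  refine Ideal.isMaximal_iff.2 ⟨fun h1 => ?_, fun J f hJ hf hfJ => ?_⟩
  · obtain ⟨j, hj⟩ := (mem_nullIdeal.1 h1).exists
    exact one_ne_zero hj
  · have hne : ∀ᶠ j in (U : Filter ℕ), f j ≠ 0 := Ultrafilter.eventually_not.2 hf
    have h1 : (1 : (j : ℕ) → K j) - f⁻¹ * f ∈ nullIdeal U K :=
      hne.mono fun j hj => by simp [inv_mul_cancel₀ hj]
    have h2 := J.add_mem (hJ h1) (J.mul_mem_left f⁻¹ hfJ)
    rwa [sub_add_cancel] at h2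

/-- **Closure.** Approximations of unbounded dimension with prescribed degrees give a
counterexample to both forms of Kurosh's problem for division rings. -/
theorem kurosh_false_of_approx (q : ℕ → ℕ)
    (h : ∀ j : ℕ, ∃ (K : Type) (_ : Field K) (D : Type) (_ : Ring D) (_ : IsDomain D)
      (_ : Algebra K D) (x y : D) (c : ℕ → ℕ → K),
      (∀ i ≤ j, npEval c x y (bseq i) ^ q i +
        ∑ l ∈ Finset.range (q i), c i l • npEval c x y (bseq i) ^ l = 0) ∧
      j < Module.finrank K (Algebra.adjoin K {x, y})) :
    ∃ (k D : Type) (_ : Field k) (_ : DivisionRing D) (_ : Algebra k D) (x y : D),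
      Algebra.adjoin k {x, y} = ⊤ ∧ Algebra.IsAlgebraic k D ∧ ¬ Module.Finite k D ∧
      Algebra.IsAlgebraic (Subring.center D) D ∧ ¬ Module.Finite (Subring.center D) D := by
  choose K hK D hD hdom hA x y c hroot hdim using h
  let U : Ultrafilter ℕ := Filter.hyperfilter ℕ
  have hU : ∀ n, ∀ᶠ j in (U : Filter ℕ), n ≤ j := fun n =>
    (Filter.eventually_ge_atTop n).filter_mono
      (Nat.cofinite_eq_atTop ▸ Filter.hyperfilter_le_cofinite)
  let m := nullIdeal U K
  let J := nullIdeal U D
  let KU := ((j : ℕ) → K j) ⧸ m
  let DU := ((j : ℕ) → D j) ⧸ J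
  let _ : Field KU := Ideal.Quotient.field m
  have : Nontrivial DU := Ideal.Quotient.nontrivial_iff.2 fun hJ => by
    obtain ⟨j, hj⟩ := (mem_nullIdeal.1
      (show (1 : (j : ℕ) → D j) ∈ J by rw [hJ]; trivial)).exists
    exact one_ne_zero hj
  have : NoZeroDivisors DU := ⟨fun {a b} hab => by
    obtain ⟨f, rfl⟩ := Ideal.Quotient.mk_surjective a
    obtain ⟨g, rfl⟩ := Ideal.Quotient.mk_surjective b
    rw [← map_mul, Ideal.Quotient.eq_zero_iff_mem] at hab
    rw [Ideal.Quotient.eq_zero_iff_mem, Ideal.Quotient.eq_zero_iff_mem]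
    exact Ultrafilter.eventually_or.1
      ((mem_nullIdeal.1 hab).mono fun j hj => mul_eq_zero.1 hj)⟩
  have : IsDomain DU := NoZeroDivisors.to_isDomain DU
  let φ : ((j : ℕ) → K j) →+* ((j : ℕ) → D j) :=
    RingHom.pi fun j => (algebraMap (K j) (D j)).comp (Pi.evalRingHom _ j)
  let ψ : KU →+* DU := Ideal.Quotient.lift m ((Ideal.Quotient.mk J).comp φ) fun f hf => by
    rw [RingHom.comp_apply, Ideal.Quotient.eq_zero_iff_mem]
    exact hf.mono fun j hj => by simp [φ, hj]
  let _ : Algebra KU DU := ψ.toAlgebra' fun r d => by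
    obtain ⟨f, rfl⟩ := Ideal.Quotient.mk_surjective r
    obtain ⟨g, rfl⟩ := Ideal.Quotient.mk_surjective d
    change Ideal.Quotient.mk J (φ f) * Ideal.Quotient.mk J g =
      Ideal.Quotient.mk J g * Ideal.Quotient.mk J (φ f)
    rw [← map_mul, ← map_mul]
    congr 1
    funext j
    simp [φ, Algebra.commutes]
  let C : ℕ → ℕ → KU := fun i l => Ideal.Quotient.mk m fun j => c j i l
  let k : Subfield KU := Subfield.closure (Set.range fun p : ℕ × ℕ => C p.1 p.2)
  let X : DU := Ideal.Quotient.mk J x
  let Y : DU := Ideal.Quotient.mk J y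
  let E : Subalgebra k DU := Algebra.adjoin k {X, Y}
  have hmap : ∀ b : NPoly, npEval C X Y b =
      Ideal.Quotient.mk J fun j => npEval (c j) (x j) (y j) b := by
    intro b
    induction b with
    | nil => exact (map_zero (Ideal.Quotient.mk J)).symm
    | cons t b ih =>
      have h1 : npEval C X Y (t :: b) = coeffEval C t • wordEval X Y t.2.2 + npEval C X Y b := by
        simp [npEval]
      have h2 : (fun j => npEval (c j) (x j) (y j) (t :: b)) =
          (φ fun j => coeffEval (c j) t) * (fun j => wordEval (x j) (y j) t.2.2) +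
            fun j => npEval (c j) (x j) (y j) b := by
        funext j
        simp [npEval, φ, Algebra.smul_def]
      rw [h1, h2, map_add, map_mul, ih, Algebra.smul_def]
      congr 1
      congr 1
      · change ψ (coeffEval C t) = _
        have hc : coeffEval C t = Ideal.Quotient.mk m fun j => coeffEval (c j) t := by
          have : (fun j => coeffEval (c j) t) =
              (t.1 : (j : ℕ) → K j) * (t.2.1.map fun p => fun j => c j p.1 p.2).prod := by
            funext j
            rw [Pi.mul_apply, Pi.list_prod_apply, List.map_map]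
            simp [coeffEval, Function.comp_def]
          rw [this, map_mul, map_intCast, map_list_prod, List.map_map]
          rfl
        rw [hc]
        rfl
      · have : (fun j => wordEval (x j) (y j) t.2.2) =
            (t.2.2.map fun s => cond s x y).prod := by
          funext j
          rw [Pi.list_prod_apply, List.map_map]
          unfold wordEval
          congr 1
          exact List.map_congr_left fun s _ => by cases s <;> rfl
        rw [this, map_list_prod, List.map_map]
        unfold wordEval
        congr 1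
        exact List.map_congr_left fun s _ => by cases s <;> rfl
  have hC : ∀ i l, C i l ∈ k := fun i l => Subfield.subset_closure ⟨(i, l), rfl⟩
  refine kurosh_false_of_values C X Y k rfl (fun b => ?_) fun hfin => ?_
  · obtain ⟨i, rfl⟩ := exists_bseq b
    refine isIntegral_of_rel k (q i) (C i) (hC i) _ ?_
    let g := fun j => npEval (c j) (x j) (y j) (bseq i)
    have hz : g ^ q i + ∑ l ∈ Finset.range (q i), φ (fun j => c j i l) * g ^ l ∈ J :=
      (hU i).mono fun j hj => by
        simpa [φ, g, Algebra.smul_def] using hroot j i hj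
    rw [← Ideal.Quotient.eq_zero_iff_mem] at hz
    simp only [map_add, map_pow, map_sum, map_mul] at hz
    rw [hmap]
    simp only [Algebra.smul_def]
    exact hz
  · obtain ⟨G, hG1, hGx, hGy⟩ := exists_stable_finset k X Y hfin
    let g : DU → (j : ℕ) → D j := fun v => Classical.choose (Ideal.Quotient.mk_surjective v)
    have hg : ∀ v, Ideal.Quotient.mk J (g v) = v := fun v =>
      Classical.choose_spec (Ideal.Quotient.mk_surjective v)
    have hrep : ∀ (d : DU) (f : (j : ℕ) → D j), Ideal.Quotient.mk J f = d →
        d ∈ Submodule.span KU (G : Set DU) →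
        ∀ᶠ j in (U : Filter ℕ), f j ∈ Submodule.span (K j) ((fun v => g v j) '' (G : Set DU)) := by
      intro d f hfd hd
      obtain ⟨a, -, ha⟩ := Submodule.mem_span_finset.1 hd
      choose w hw using fun v => Ideal.Quotient.mk_surjective (I := m) (a v)
      have h4 : Ideal.Quotient.mk J (f - ∑ v ∈ G, φ (w v) * g v) = 0 := by
        rw [map_sub, map_sum, hfd, sub_eq_zero, ← ha]
        refine Finset.sum_congr rfl fun v _ => ?_
        rw [map_mul, hg, Algebra.smul_def, ← hw]
        rfl
      refine (mem_nullIdeal.1 (Ideal.Quotient.eq_zero_iff_mem.1 h4)).mono fun j hj => ?_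
      rw [Pi.sub_apply, sub_eq_zero, Finset.sum_apply] at hj
      rw [hj]
      refine Submodule.sum_mem _ fun v hv => ?_
      have h5 : (φ (w v) * g v) j = w v j • g v j := by simp [φ, Algebra.smul_def]
      rw [h5]
      exact Submodule.smul_mem _ _ (Submodule.subset_span ⟨v, hv, rfl⟩)
    have h1 := hrep 1 1 (map_one _) hG1
    have hx := G.eventually_all.2 fun v hv =>
      hrep (X * v) (x * g v) (by rw [map_mul, hg]) (hGx v hv)
    have hy := G.eventually_all.2 fun v hv =>
      hrep (Y * v) (y * g v) (by rw [map_mul, hg]) (hGy v hv)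
    obtain ⟨j, ⟨⟨h1j, hxj⟩, hyj⟩, hGj⟩ := (((h1.and hx).and hy).and (hU G.card)).exists
    classical
    have hle := adjoin_le_span (x j) (y j) ((fun v => g v j) '' (G : Set DU)) h1j
      (by rintro _ ⟨v, hv, rfl⟩; exact hxj v hv) (by rintro _ ⟨v, hv, rfl⟩; exact hyj v hv)
    rw [← Finset.coe_image] at hle
    have hfd : FiniteDimensional (K j)
        (Submodule.span (K j) ((G.image fun v => g v j : Finset (D j)) : Set (D j))) :=
      FiniteDimensional.span_finset _ _
    have h6 := (Submodule.finrank_mono hle).trans
      ((finrank_span_finset_le_card _).trans Finset.card_image_le)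
    rw [Subalgebra.finrank_toSubmodule] at h6
    exact absurd (hdim j) (by omega)

end Vale.Agent.P199
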