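import Vale.Agent.P199.Division

/-!
P199: the Pauli matrices, their commutation signs, the coordinates of a matrix in their basis, and
matrices fixed by the semilinear Heisenberg action.
-/

namespace Vale.Agent.P199.Pauli

open Matrix Division

variable {n : ℕ}

/-- Index set of the Pauli matrices. -/
abbrev Pidx (n : ℕ) := Idx n × Idx n

/-- The pairing of `ZMod 2` vectors. -/
def dot (a b : Idx n) : ZMod 2 := ∑ i, a i * b i

theorem dot_add (a b c : Idx n) : dot a (b + c) = dot a b + dot a c := by
  simp [dot, mul_add, Finset.sum_add_distrib]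

theorem add_dot (a b c : Idx n) : dot (a + b) c = dot a c + dot b c := by
  simp [dot, add_mul, Finset.sum_add_distrib]

theorem dot_comm (a b : Idx n) : dot a b = dot b a := by
  simp [dot, mul_comm]

theorem sgn_add (a b : ZMod 2) : sgn (a + b) = sgn a * sgn b := by
  revert a b; decide

theorem sgn_mul_self (a : ZMod 2) : sgn a * sgn a = 1 := by
  revert a; decide

theorem add_self (a : Idx n) : a + a = 0 :=
  funext fun i => (by decide : ∀ t : ZMod 2, t + t = 0) (a i)

/-- The Pauli matrix: translation times a sign diagonal. -/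
def pauli (g : Pidx n) : Matrix (Idx n) (Idx n) ℤ :=
  Matrix.of fun x y => if y = x + g.1 then sgn (dot g.2 y) else 0

/-- The commutation sign. -/
def sign (g h : Pidx n) : ℤ := sgn (dot g.2 h.1 + dot h.2 g.1)

theorem sign_comm (g h : Pidx n) : sign g h = sign h g := by
  simp [sign, add_comm]

theorem sign_add (g h k : Pidx n) : sign g (h + k) = sign g h * sign g k := by
  simp only [sign, Prod.fst_add, Prod.snd_add, dot_add, add_dot, ← sgn_add]
  congr 1
  abel

theorem sign_mul_self (g h : Pidx n) : sign g h * sign g h = 1 := sgn_mul_self _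

theorem exists_sign_eq_neg_one (g : Pidx n) (hg : g ≠ 0) : ∃ h, sign h g = -1 := by
  classical
  by_cases h1 : g.1 = 0
  · have h2 : g.2 ≠ 0 := fun h2 => hg (Prod.ext h1 h2)
    obtain ⟨i, hi⟩ := Function.ne_iff.1 h2
    refine ⟨(Pi.single i 1, 0), ?_⟩
    have hi' : g.2 i = 1 := (by decide : ∀ t : ZMod 2, t ≠ 0 → t = 1) _ hi
    simp [sign, dot, Pi.single_apply, hi', sgn]
  · obtain ⟨i, hi⟩ := Function.ne_iff.1 h1
    refine ⟨(0, Pi.single i 1), ?_⟩
    have hi' : g.1 i = 1 := (by decide : ∀ t : ZMod 2, t ≠ 0 → t = 1) _ hi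
    simp [sign, dot, Pi.single_apply, hi', sgn]

theorem pauli_mul (g h : Pidx n) : pauli g * pauli h = sgn (dot g.2 h.1) • pauli (g + h) := by
  ext x y
  rw [Matrix.mul_apply, Finset.sum_eq_single (x + g.1)]
  · simp only [pauli, Matrix.of_apply, if_pos, Matrix.smul_apply, Prod.fst_add, Prod.snd_add,
      smul_eq_mul, ← add_assoc]
    by_cases hy : y = x + g.1 + h.1
    · rw [if_pos hy, if_pos hy, hy, ← sgn_add, ← sgn_add]
      congr 1
      simp only [add_dot, dot_add]
      linear_combination (-1 : ZMod 2) * (by decide : ∀ t : ZMod 2, t + t = 0) (dot g.2 h.1)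
    · rw [if_neg hy, if_neg hy]
      simp
  · intro z _ hz
    simp [pauli, if_neg hz]
  · simp

theorem pauli_comm (g h : Pidx n) : pauli g * pauli h = sign g h • (pauli h * pauli g) := by
  rw [pauli_mul, pauli_mul, smul_smul, add_comm g h]
  congr 1
  rw [sign, sgn_add, mul_assoc, sgn_mul_self, mul_one]

theorem pauli_zero : pauli (0 : Pidx n) = 1 := by
  ext x y
  simp [pauli, dot, sgn, Matrix.one_apply, eq_comm]

theorem pauli_shift (a : Idx n) : pauli (a, 0) = shift a := by
  ext x y
  simp [pauli, shift, dot, sgn]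

theorem pauli_clock (k : Fin n) : pauli ((0 : Idx n), Pi.single k 1) = clock k := by
  ext x y
  simp only [pauli, Matrix.of_apply, add_zero, clock, Matrix.diagonal_apply]
  by_cases hxy : x = y
  · subst hxy
    simp [dot, Pi.single_apply]
  · simp [hxy, Ne.symm hxy]

variable {L : Type*}

theorem castMat_mul [Ring L] (A B : Matrix (Idx n) (Idx n) ℤ) :
    castMat L (A * B) = castMat L A * castMat L B :=
  Matrix.map_mul (f := Int.castRingHom L)

theorem castMat_smul [CommRing L] (a : ℤ) (A : Matrix (Idx n) (Idx n) ℤ) :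
    castMat L (a • A) = (a : L) • castMat L A := by
  ext x y
  simp only [castMat, Matrix.map_apply, Matrix.smul_apply, smul_eq_mul, Int.cast_mul]

theorem isUnit_pauli [CommRing L] (g : Pidx n) : IsUnit (castMat L (pauli g)) := by
  refine IsUnit.of_mul_eq_one ((sgn (dot g.2 g.1) : L) • castMat L (pauli g)) ?_
  rw [Matrix.mul_smul, ← castMat_mul, pauli_mul, castMat_smul, smul_smul,
    show g + g = 0 from Prod.ext (add_self _) (add_self _), pauli_zero, ← Int.cast_mul,
    sgn_mul_self]
  simp [castMat, Matrix.map_one]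

theorem irred_pauli [Field L] (h2 : (2 : L) ≠ 0) :
    Irred (pauli : Pidx n → Matrix (Idx n) (Idx n) ℤ) (fun _ => RingHom.id L) :=
  irred_heisenberg h2 (fun a => ⟨(a, 0), pauli_shift a⟩)
    fun k => ⟨(0, Pi.single k 1), pauli_clock k⟩

section coord
variable [CommRing L]

/-- The coordinate of a matrix at a Pauli matrix. -/
def coord [Invertible (2 : L)] (u : Pidx n) (z : Matrix (Idx n) (Idx n) L) : L :=
  ⅟(2 : L) ^ n * ∑ x, z x (x + u.1) * (sgn (dot u.2 (x + u.1)) : L)

theorem sum_sgn_dot (a : Idx n) :
    ∑ b : Idx n, sgn (dot b a) = if a = 0 then 2 ^ n else 0 := by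
  have hprod : ∀ b : Idx n, sgn (dot b a) = ∏ i, (fun i t => sgn (t * a i)) i (b i) := by
    intro b
    unfold dot
    induction (Finset.univ : Finset (Fin n)) using Finset.induction_on with
    | empty => simp [sgn]
    | insert i s hi ih => rw [Finset.sum_insert hi, Finset.prod_insert hi, sgn_add, ih]
  rw [Fintype.sum_congr _ _ hprod]
  refine ((Fintype.prod_sum fun i t => sgn (t * a i)).symm).trans ?_
  have hone : ∀ s : ZMod 2, ∑ t : ZMod 2, sgn (t * s) = if s = 0 then 2 else 0 := by decide
  simp only [hone]
  split_ifs with ha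
  · subst ha
    simp
  · obtain ⟨i, hi⟩ := Function.ne_iff.1 ha
    exact Finset.prod_eq_zero (Finset.mem_univ i) (if_neg hi)

theorem eq_sum_coord [Invertible (2 : L)] (z : Matrix (Idx n) (Idx n) L) :
    z = ∑ u : Pidx n, coord u z • castMat L (pauli u) := by
  ext x y
  rw [Matrix.sum_apply, Fintype.sum_prod_type]
  have hya : ∀ a : Idx n, (y = x + a) ↔ a = x + y := fun a => by
    constructor
    · rintro rfl
      rw [← add_assoc, add_self, zero_add]
    · rintro rfl
      rw [← add_assoc, add_self, zero_add]
  rw [Finset.sum_eq_single (x + y)]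
  · have h1 : ∀ b : Idx n, (coord (x + y, b) z • castMat L (pauli (x + y, b))) x y =
        ⅟(2 : L) ^ n * ∑ w, z w (w + (x + y)) * (sgn (dot b (w + (x + y) + y)) : L) := by
      intro b
      simp only [Matrix.smul_apply, smul_eq_mul, castMat, Matrix.map_apply, pauli,
        Matrix.of_apply, if_pos ((hya _).2 rfl), coord, mul_assoc, Finset.sum_mul]
      congr 1
      refine Finset.sum_congr rfl fun w _ => ?_
      rw [dot_add b (w + (x + y)) y, sgn_add, Int.cast_mul]
    rw [Fintype.sum_congr _ _ h1, ← Finset.mul_sum, Finset.sum_comm]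
    simp only [← Finset.mul_sum, ← Int.cast_sum, sum_sgn_dot]
    rw [Finset.sum_eq_single x]
    · have h2 : x + (x + y) + y = 0 := by
        rw [← add_assoc, add_self, zero_add, add_self]
      rw [if_pos h2, ← add_assoc x x y, add_self, zero_add]
      push_cast
      rw [mul_comm, mul_assoc, ← mul_pow, mul_invOf_self, one_pow, mul_one]
    · intro w _ hw
      rw [if_neg]
      · simp
      · intro h
        apply hw
        have h3 : w + x + (y + y) = 0 := by rw [← h]; abel
        rw [add_self, add_zero] at h3
        calc w = w + x + x := by rw [add_assoc, add_self, add_zero]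
          _ = x := by rw [h3, zero_add]
    · simp
  · intro a _ ha
    refine Finset.sum_eq_zero fun b _ => ?_
    simp [pauli, mt (hya a).1 ha]
  · simp

theorem trace_pauli (u : Pidx n) :
    (castMat L (pauli u)).trace = if u = 0 then (2 : L) ^ n else 0 := by
  rw [Matrix.trace]
  simp only [Matrix.diag_apply, castMat, Matrix.map_apply, pauli, Matrix.of_apply]
  by_cases h1 : u.1 = 0
  · simp only [h1, add_zero, if_pos, ← Int.cast_sum]
    rw [Fintype.sum_congr _ _ fun x => by rw [dot_comm], sum_sgn_dot]
    have : u = 0 ↔ u.2 = 0 := ⟨fun h => by rw [h]; rfl, fun h => Prod.ext h1 h⟩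
    simp only [this]
    split_ifs <;> simp
  · have : ¬ u = 0 := fun h => h1 (by rw [h]; rfl)
    rw [if_neg this]
    refine Finset.sum_eq_zero fun x _ => ?_
    rw [if_neg, Int.cast_zero]
    intro h
    exact h1 (add_left_cancel (a := x) (by rw [← h, add_zero]))

theorem coord_pauli [Invertible (2 : L)] (u v : Pidx n) :
    coord u (castMat L (pauli v)) = if u = v then 1 else 0 := by
  simp only [coord, castMat, Matrix.map_apply, pauli, Matrix.of_apply]
  by_cases h1 : u.1 = v.1
  · have h0 : ∀ x : Idx n, sgn (dot v.2 (x + u.1)) * sgn (dot u.2 (x + u.1)) =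
        sgn (dot (x + u.1) (u.2 + v.2)) := fun x => by
      rw [← sgn_add, dot_comm (x + u.1), add_dot, add_comm]
    simp only [h1, if_pos, ← Int.cast_mul]
    rw [← h1]
    simp only [h0, ← Int.cast_sum]
    rw [Fintype.sum_equiv (Equiv.addRight u.1) (fun x => sgn (dot (x + u.1) (u.2 + v.2)))
      (fun x => sgn (dot x (u.2 + v.2))) fun x => rfl, sum_sgn_dot]
    have : u.2 + v.2 = 0 ↔ u = v := by
      constructor
      · intro h
        refine Prod.ext h1 ?_
        calc u.2 = u.2 + v.2 + v.2 := by rw [add_assoc, add_self, add_zero]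
          _ = v.2 := by rw [h, zero_add]
      · rintro rfl
        exact add_self _
    simp only [this]
    split_ifs
    · push_cast
      rw [← mul_pow, invOf_mul_self, one_pow]
    · simp
  · rw [if_neg (fun h => h1 (by rw [h])), Finset.sum_eq_zero, mul_zero]
    intro x _
    rw [if_neg fun h => h1 (add_left_cancel h)]
    simp

theorem coord_sum [Invertible (2 : L)] (X : Pidx n → L) (v : Pidx n) :
    coord v (∑ u, X u • castMat L (pauli u)) = X v := by
  have hlin : coord v (∑ u, X u • castMat L (pauli u)) =
      ∑ u, X u * coord v (castMat L (pauli u)) := by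
    simp only [coord, Matrix.sum_apply, Matrix.smul_apply, smul_eq_mul, Finset.sum_mul,
      Finset.mul_sum]
    rw [Finset.sum_comm]
    exact Finset.sum_congr rfl fun u _ => Finset.sum_congr rfl fun x _ => by ring
  rw [hlin]
  simp [coord_pauli]

/-- A matrix is fixed exactly when its coordinates are semi-invariant with the commutation
signs. -/
theorem fixed_iff [Invertible (2 : L)] (g : Pidx n) (σ : L →+* L)
    (z : Matrix (Idx n) (Idx n) L) :
    castMat L (pauli g) * z.map σ = z * castMat L (pauli g) ↔
      ∀ u, σ (coord u z) = (sign g u : L) * coord u z := by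
  have hmap : z.map σ = ∑ u, σ (coord u z) • castMat L (pauli u) := by
    conv_lhs => rw [eq_sum_coord z]
    ext x y
    simp [Matrix.sum_apply, map_sum, map_mul]
  have hl : castMat L (pauli g) * z.map σ =
      (∑ u, (σ (coord u z) * (sign g u : L)) • castMat L (pauli u)) * castMat L (pauli g) := by
    rw [hmap, Finset.mul_sum, Finset.sum_mul]
    refine Finset.sum_congr rfl fun u _ => ?_
    rw [Matrix.mul_smul, ← castMat_mul, pauli_comm, castMat_smul, smul_smul, Matrix.smul_mul,
      ← castMat_mul]
  rw [hl]
  constructor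
  · intro h u
    have h1 := congrArg (coord u) ((isUnit_pauli g).mul_right_cancel h)
    rw [coord_sum] at h1
    calc σ (coord u z) = σ (coord u z) * ((sign g u * sign g u : ℤ) : L) := by
          rw [sign_mul_self, Int.cast_one, mul_one]
      _ = _ := by rw [Int.cast_mul, ← mul_assoc, h1]; ring
  · intro h
    congr 1
    conv_rhs => rw [eq_sum_coord z]
    refine Finset.sum_congr rfl fun u _ => ?_
    congr 1
    rw [h u, mul_comm (_ : L) (coord u z), mul_assoc, ← Int.cast_mul, sign_mul_self, Int.cast_one,
      mul_one]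

/-- Coordinates at `0` and traces. -/
theorem trace_eq_coord_zero [Invertible (2 : L)] (z : Matrix (Idx n) (Idx n) L) :
    z.trace = (2 : L) ^ n * coord 0 z := by
  conv_lhs => rw [eq_sum_coord z]
  rw [Matrix.trace_sum]
  simp [Matrix.trace_smul, trace_pauli, mul_comm]

end coord

/-- The characteristic polynomial of a fixed matrix has fixed coefficients. -/
theorem charpoly_map_fixed [CommRing L] [Nontrivial L] {X : Type*} [Fintype X] [DecidableEq X]
    {H : Matrix X X L} (hH : IsUnit H) (σ : L →+* L) (z : Matrix X X L)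
    (hz : H * z.map σ = z * H) : z.charpoly.map σ = z.charpoly := by
  obtain ⟨H, rfl⟩ := hH
  rw [← Matrix.charpoly_map]
  have : z.map σ = (↑H⁻¹ : Matrix X X L) * z * (H : Matrix X X L) := by
    rw [mul_assoc, ← hz, ← mul_assoc, Units.inv_mul, one_mul]
  rw [this, Matrix.charpoly_mul_comm, ← mul_assoc, Units.mul_inv, one_mul]

end Vale.Agent.P199.Pauli
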