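import Vale.Agent.P199.Division

/-!
# P199: irreducibility along a stable prime with a discrete valuation ring

If a prime `C` of a domain `R` is stable under the ring endomorphisms `σ i` and its local ring is
a principal ideal domain, semilinear irreducibility over the fraction field of `R ⧸ C` gives it
over the fraction field of `R`.
-/

namespace Vale.Agent.P199.Division

variable {X : Type*} [Fintype X]

/-- Irreducibility lifts along a stable prime whose local ring is a principal ideal domain. -/
theorem irred_of_prime {R K κ : Type*} [CommRing R] [IsDomain R] [Field K] [Algebra R K]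
    [IsFractionRing R K] [Field κ] (C : Ideal R) [C.IsPrime]
    [IsPrincipalIdealRing (Localization.AtPrime C)] (g : R →+* κ) (hg : RingHom.ker g = C)
    (hfrac : ∀ z, ∃ a s, g s ≠ 0 ∧ z * g s = g a) {ι : Type*} (H : ι → Matrix X X ℤ)
    (σ : ι → R →+* R) (hC : ∀ i, C.comap (σ i) = C) (σK : ι → K →+* K) (σκ : ι → κ →+* κ)
    (hK : ∀ i a, σK i (algebraMap R K a) = algebraMap R K (σ i a))
    (hκ : ∀ i a, σκ i (g a) = g (σ i a)) (h : Irred H σκ) : Irred H σK := by
  let O := Localization.AtPrime C
  have hO : C.primeCompl ≤ nonZeroDivisors R := C.primeCompl_le_nonZeroDivisors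
  have : IsDomain O := IsLocalization.isDomain_localization hO
  have hu : ∀ s : C.primeCompl, IsUnit (algebraMap R K s) := fun s =>
    IsLocalization.map_units (M := nonZeroDivisors R) K ⟨s, hO s.2⟩
  have hu' : ∀ s : C.primeCompl, IsUnit (g s) := fun s => by
    refine isUnit_iff_ne_zero.2 fun h0 => s.2 ?_
    exact hg.le (RingHom.mem_ker.2 h0)
  let toK : O →+* K := IsLocalization.lift hu
  let _ : Algebra O K := toK.toAlgebra
  have : IsScalarTower R O K :=
    IsScalarTower.of_algebraMap_eq fun a => (IsLocalization.lift_eq hu a).symm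
  have : IsFractionRing O K :=
    IsFractionRing.isFractionRing_of_isDomain_of_isLocalization C.primeCompl O K
  let π : O →+* κ := IsLocalization.lift hu'
  have hπ : Function.Surjective π := by
    intro z
    obtain ⟨a, s, hs, hz⟩ := hfrac z
    have hsC : s ∈ C.primeCompl := fun h => hs (RingHom.mem_ker.1 (hg.ge h))
    refine ⟨IsLocalization.mk' O a ⟨s, hsC⟩, ?_⟩
    change IsLocalization.lift hu' (IsLocalization.mk' O a ⟨s, hsC⟩) = z
    rw [IsLocalization.lift_mk'_spec]
    linear_combination (-1 : κ) * hz
  have hσ : ∀ i, C.primeCompl ≤ C.primeCompl.comap (σ i) := fun i s hs h => hs ((hC i).le h)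
  refine irred_of_residue (O := O) H π hπ
    (fun i => IsLocalization.map O (σ i) (hσ i)) σK σκ (fun i => ?_) (fun i => ?_) h
  · refine fun x => RingHom.congr_fun (f := (σK i).comp toK)
      (g := toK.comp (IsLocalization.map O (σ i) (hσ i))) ?_ x
    refine IsLocalization.ringHom_ext C.primeCompl (RingHom.ext fun a => ?_)
    simp [toK, IsLocalization.lift_eq, hK, IsLocalization.map_eq]
  · refine fun x => RingHom.congr_fun (f := (σκ i).comp π)
      (g := π.comp (IsLocalization.map O (σ i) (hσ i))) ?_ x
    refine IsLocalization.ringHom_ext C.primeCompl (RingHom.ext fun a => ?_)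
    simp [π, IsLocalization.lift_eq, hκ, IsLocalization.map_eq]

end Vale.Agent.P199.Division
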