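import Mathlib

/-!
# P199: reduction of an invariant subspace modulo a prime of a principal ideal domain

A subspace of `L ^ N` that is invariant under semilinear maps with integral matrices gives, by
saturation, an invariant subspace of the same dimension over the residue field.
-/

namespace Vale.Agent.P199.Reduce

open Module Submodule Matrix

variable {O L κ : Type*} [CommRing O] [IsDomain O] [IsPrincipalIdealRing O] [Field L] [Algebra O L]
  [IsFractionRing O L] [Field κ] {X : Type*} [Fintype X]

/-- The lattice of integral vectors in a subspace. -/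
def lattice (W : Submodule L (X → L)) : Submodule O (X → O) :=
  (W.restrictScalars O).comap ((Algebra.linearMap O L).compLeft X)

omit [IsDomain O] [IsPrincipalIdealRing O] [IsFractionRing O L] [Fintype X] in
lemma mem_lattice {W : Submodule L (X → L)} {m : X → O} :
    m ∈ lattice W ↔ (algebraMap O L) ∘ m ∈ W := Iff.rfl

/-- The reduction of an invariant subspace. -/
theorem exists_invariant_reduction (π : O →+* κ) (hπ : Function.Surjective π)
    (W : Submodule L (X → L)) {ι : Type*} (σO : ι → O →+* O) (σL : ι → L →+* L)
    (σκ : ι → κ →+* κ) (hL : ∀ i a, σL i (algebraMap O L a) = algebraMap O L (σO i a))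
    (hκ : ∀ i a, σκ i (π a) = π (σO i a)) (H : ι → Matrix X X O)
    (hW : ∀ i, ∀ w ∈ W, (H i).map (algebraMap O L) *ᵥ (σL i ∘ w) ∈ W) :
    ∃ W' : Submodule κ (X → κ), finrank κ W' = finrank L W ∧
      ∀ i, ∀ w ∈ W', (H i).map π *ᵥ (σκ i ∘ w) ∈ W' := by
  classical
  have hinj : Function.Injective (algebraMap O L) := IsFractionRing.injective O L
  set M : Submodule O (X → O) := lattice W with hM
  have : IsTorsionFree O ((X → O) ⧸ M) := by
    refine Module.IsTorsionFree.of_smul_eq_zero fun c x h => ?_
    obtain ⟨m, rfl⟩ := Submodule.mkQ_surjective M x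
    rw [← map_smul, Submodule.mkQ_apply, Submodule.Quotient.mk_eq_zero, hM, mem_lattice] at h
    rw [or_iff_not_imp_left]
    intro hc
    rw [Submodule.mkQ_apply, Submodule.Quotient.mk_eq_zero, hM, mem_lattice]
    have hc' : algebraMap O L c ≠ 0 := (map_ne_zero_iff _ hinj).2 hc
    have heq : (algebraMap O L) ∘ m = (algebraMap O L c)⁻¹ • ((algebraMap O L) ∘ (c • m)) := by
      funext j
      simp [hc']
    rw [heq]
    exact W.smul_mem _ h
  have : Module.Free O ((X → O) ⧸ M) := Module.free_of_finite_type_torsion_free'
  obtain ⟨s, hs⟩ := M.mkQ.exists_rightInverse_of_surjective (Submodule.range_mkQ M)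
  -- projection on the lattice
  let p : (X → O) →ₗ[O] (X → O) := LinearMap.id - s.comp M.mkQ
  have hp : ∀ x, p x ∈ M := fun x => by
    rw [← Submodule.Quotient.mk_eq_zero, ← Submodule.mkQ_apply]
    simp only [p, LinearMap.sub_apply, LinearMap.id_apply, LinearMap.comp_apply, map_sub]
    rw [← LinearMap.comp_apply M.mkQ s, hs, LinearMap.id_apply, sub_self]
  have hp1 : ∀ x ∈ M, p x = x := fun x hx => by
    simp only [p, LinearMap.sub_apply, LinearMap.id_apply, LinearMap.comp_apply,
      Submodule.mkQ_apply, (Submodule.Quotient.mk_eq_zero M).2 hx, map_zero, sub_zero]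
  let b := Module.Free.chooseBasis O M
  set d := Fintype.card (Module.Free.ChooseBasisIndex O M)
  let red : (X → O) → (X → κ) := fun m => π ∘ m
  have hsum : ∀ {J : Type _} (F : Finset J) (c : J → O) (f : J → (X → O)),
      red (∑ i ∈ F, c i • f i) = ∑ i ∈ F, π (c i) • red (f i) := by
    intro J F c f
    funext j
    simp [red, Finset.sum_apply, map_sum]
  set W' : Submodule κ (X → κ) := span κ (Set.range fun i => red (b i : X → O)) with hW'
  have hmem : ∀ m ∈ M, red m ∈ W' := by
    intro m hm
    have h := b.sum_repr ⟨m, hm⟩
    have h' : ∑ i, b.repr ⟨m, hm⟩ i • (b i : X → O) = m := by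
      have h'' := congrArg Subtype.val h
      rw [Submodule.coe_sum] at h''
      simpa only [Submodule.coe_smul] using h''
    rw [← h', hsum]
    exact W'.sum_mem fun i _ => W'.smul_mem _ (subset_span ⟨i, rfl⟩)
  refine ⟨W', ?_, ?_⟩
  · -- both dimensions are the rank of the lattice
    have hli : LinearIndependent κ fun i => red (b i : X → O) := by
      rw [Fintype.linearIndependent_iff]
      intro g hg i
      choose c hc using fun i => hπ (g i)
      set x : X → O := ∑ i, c i • (b i : X → O) with hx
      have hxM : x ∈ M := M.sum_mem fun i _ => M.smul_mem _ (b i).2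
      have h0 : red x = 0 := by rw [hx, hsum]; simpa [hc] using hg
      let φ : (X → O) →ₗ[O] O :=
        (Finsupp.lapply i).comp (b.repr.toLinearMap.comp (p.codRestrict M hp))
      have hφx : φ x = c i := by
        have hcr : p.codRestrict M hp x = ∑ i, c i • b i := by
          apply Subtype.ext
          rw [LinearMap.codRestrict_apply, hp1 x hxM, hx]
          simp
        change b.repr (p.codRestrict M hp x) i = c i
        rw [hcr, b.repr_sum_self]
      have hφ : π (φ x) = ∑ j, π (x j) * π (φ (Pi.single j 1)) := by
        conv_lhs => rw [pi_eq_sum_univ' x, map_sum]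
        simp [map_sum, map_mul]
      rw [← hc i, ← hφx, hφ]
      exact Finset.sum_eq_zero fun j _ => by
        rw [show π (x j) = 0 from congrFun h0 j, zero_mul]
    have h1 : finrank κ W' = d := finrank_span_eq_card hli
    have hliL : LinearIndependent L fun i => (algebraMap O L) ∘ (b i : X → O) := by
      have h : LinearIndependent O fun i => (algebraMap O L) ∘ (b i : X → O) :=
        (b.linearIndependent.map' M.subtype (Submodule.ker_subtype M)).map'
          ((Algebra.linearMap O L).compLeft X)
          (LinearMap.ker_eq_bot.2 fun u v h => funext fun j => hinj (congrFun h j))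
      exact (LinearIndependent.iff_fractionRing (R := O) (K := L)).1 h
    have hspan : span L (Set.range fun i => (algebraMap O L) ∘ (b i : X → O)) = W := by
      refine le_antisymm (span_le.2 ?_) fun w hw => ?_
      · rintro _ ⟨i, rfl⟩
        exact (b i).2
      obtain ⟨⟨a, ha⟩, h⟩ := IsLocalization.exist_integer_multiples_of_finite
        (nonZeroDivisors O) w
      choose m hm using h
      have hm' : (algebraMap O L) ∘ m = algebraMap O L a • w := by
        funext j
        simp [hm j, Algebra.smul_def]
      have hmM : m ∈ M := by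
        rw [hM, mem_lattice, hm']
        exact W.smul_mem _ hw
      have hw' : w = (algebraMap O L a)⁻¹ • ((algebraMap O L) ∘ m) := by
        rw [hm', smul_smul, inv_mul_cancel₀
          ((map_ne_zero_iff _ hinj).2 (nonZeroDivisors.ne_zero ha)), one_smul]
      rw [hw']
      refine Submodule.smul_mem _ _ ?_
      have h' : ∑ i, b.repr ⟨m, hmM⟩ i • (b i : X → O) = m := by
        have h0 := congrArg Subtype.val (b.sum_repr ⟨m, hmM⟩)
        rw [Submodule.coe_sum] at h0
        simpa only [Submodule.coe_smul] using h0
      have h'' : (algebraMap O L) ∘ m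
          = ∑ i, algebraMap O L (b.repr ⟨m, hmM⟩ i) • ((algebraMap O L) ∘ (b i : X → O)) := by
        funext j
        conv_lhs => rw [← h']
        simp [Finset.sum_apply, map_sum, Algebra.smul_def]
      rw [h'']
      exact Submodule.sum_mem _ fun i _ => Submodule.smul_mem _ _ (subset_span ⟨i, rfl⟩)
    rw [h1, ← hspan, finrank_span_eq_card hliL]
  · intro i w hw
    induction hw using Submodule.span_induction with
    | mem w hw =>
      obtain ⟨j, rfl⟩ := hw
      have h := hW i _ (b j).2
      have hint : (algebraMap O L) ∘ (H i *ᵥ (σO i ∘ (b j : X → O)))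
          = (H i).map (algebraMap O L) *ᵥ (σL i ∘ ((algebraMap O L) ∘ (b j : X → O))) := by
        funext r
        simp [mulVec, dotProduct, map_sum, hL]
      have hm : H i *ᵥ (σO i ∘ (b j : X → O)) ∈ M := by
        change (algebraMap O L) ∘ _ ∈ W
        rw [hint]
        exact h
      have := hmem _ hm
      convert this using 1
      funext r
      simp [red, mulVec, dotProduct, map_sum, hκ]
    | zero =>
      rw [show σκ i ∘ (0 : X → κ) = 0 from funext fun _ => map_zero _, mulVec_zero]
      exact W'.zero_mem
    | add p q _ _ hp' hq' =>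
      rw [show σκ i ∘ (p + q) = σκ i ∘ p + σκ i ∘ q from funext fun _ => map_add _ _ _, mulVec_add]
      exact W'.add_mem hp' hq'
    | smul c p _ hp' =>
      rw [show σκ i ∘ (c • p) = σκ i c • (σκ i ∘ p) from funext fun _ => map_mul _ _ _,
        mulVec_smul]
      exact W'.smul_mem _ hp'

end Vale.Agent.P199.Reduce
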